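import Crest.Agent.R126.Good

set_option autoImplicit false

open scoped ContDiff
open Crest.AnalysisR.BoxFlow Crest.Agent.Lib.PrimrecRat Primrec

namespace Crest.Agent.R126

variable {R : ℕ}

lemma Good.congr {f f' : E → ℝ} (h : Good R f) (e : ∀ p, f p = f' p) : Good R f' := by
  have : f = f' := funext e
  rwa [← this]

lemma abs_rat_le (q : ℚ) : |(q : ℝ)| ≤ (q.num.natAbs : ℝ) := by
  have h1 : (q : ℝ) = q.num / q.den := by exact_mod_cast (Rat.num_div_den q).symm
  rw [h1, abs_div, Nat.cast_natAbs, Int.cast_abs, Nat.abs_cast]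
  exact div_le_self (abs_nonneg _) (by exact_mod_cast q.den_pos)

lemma good_const (q : ℚ) : Good R (fun _ => (q : ℝ)) := by
  refine (good_of_atoms (A := Unit) (fun _ _ => (q : ℝ)) (fun _ => contDiff_const)
    (fun _ _ => []) (Primrec₂.const _) (fun d a => by rw [dd_const, evP_nil])
    (fun _ => q.num.natAbs) (const _) (fun _ _ _ => abs_rat_le q)
    (fun _ => q) (const _) (fun _ _ n _ => by simp; positivity) [[()]]).congr fun p => ?_
  simp [evP, evM]

lemma dd_fst (d : Fin 4) (p : E) : dd d (fun p : E => p.1) p = (direction d).1 := by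
  unfold dd
  rw [fderiv_fst]; rfl

lemma dd_snd (j : Fin 3) (d : Fin 4) (p : E) :
    dd d (fun p : E => p.2 j) p = (direction d).2 j := by
  unfold dd
  let L : E →L[ℝ] ℝ := (ContinuousLinearMap.proj j).comp (ContinuousLinearMap.snd ℝ ℝ (Fin 3 → ℝ))
  have : (fun p : E => p.2 j) = L := rfl
  rw [this, L.fderiv]; rfl

lemma good_fst : Good R (fun p : E => p.1) := by
  refine (good_of_atoms (A := Unit) (fun _ p => p.1) (fun _ => contDiff_fst)
    (fun d _ => if d = 0 then [[]] else []) ?_ ?_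
    (fun _ => R) (const _) ?_ (fun y => y.2.1.1) (fst.comp (fst.comp snd)) ?_ [[()]]).congr
    fun p => ?_
  · exact (Primrec.ite (Primrec.eq.comp fst (const 0)) (const _) (const _)).to₂
  · intro d a
    funext p
    rw [dd_fst]
    unfold direction
    split_ifs <;> simp [evP, evM]
  · intro _ p hp
    exact (norm_fst_le p).trans hp
  · intro _ x n _
    simp [toE]; positivity
  · simp [evP, evM]

lemma good_snd (j : Fin 3) : Good R (fun p : E => p.2 j) := by
  refine (good_of_atoms (A := Unit) (fun _ p => p.2 j) (fun _ => by fun_prop)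
    (fun d _ => if d = j.succ then [[]] else []) ?_ ?_
    (fun _ => R) (const _) ?_ (fun y => y.2.1.2 j)
    (fin_app.comp (snd.comp (fst.comp snd)) (const j)) ?_ [[()]]).congr
    fun p => ?_
  · exact (Primrec.ite (Primrec.eq.comp fst (const _)) (const _) (const _)).to₂
  · intro d a
    funext p
    rw [dd_snd]
    unfold direction
    cases d using Fin.cases with
    | zero => simp [evP, (Fin.succ_ne_zero j).symm]
    | succ i =>
      by_cases h : i = j
      · subst h; simp [evP, evM]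
      · simp [evP, h, Pi.single_eq_of_ne (Ne.symm h)]
  · intro _ p hp
    exact ((norm_le_pi_norm p.2 j).trans (norm_snd_le p)).trans hp
  · intro _ x n _
    simp [toE, ratPoint]; positivity
  · simp [evP, evM]

lemma good_two {f f' : E → ℝ} (hf : Good R f) (hf' : Good R f')
    (P : List (List (Bool × List (Fin 4)))) :
    Good R (evP (fun a : Bool × List (Fin 4) => md a.2 (bif a.1 then f else f')) P) := by
  obtain ⟨s1, A1, B1, pA1, pB1, hA1, hB1⟩ := hf
  obtain ⟨s2, A2, B2, pA2, pB2, hA2, hB2⟩ := hf'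
  refine good_of_atoms _ ?_ (fun d a => [[(a.1, d :: a.2)]]) ?_ ?_
    (fun a => bif a.1 then B1 a.2 else B2 a.2) ?_ ?_
    (fun y => bif y.1.1 then A1 (y.1.2, y.2) else A2 (y.1.2, y.2)) ?_ ?_ P
  · rintro ⟨b, ds⟩
    cases b
    · exact contDiff_md s2 ds
    · exact contDiff_md s1 ds
  · exact (list_cons.comp (list_cons.comp ((fst.comp snd).pair (list_cons.comp fst (snd.comp snd)))
      (const [])) (const [])).to₂
  · intro d a
    funext p
    simp [evP, evM, md]
  · exact Primrec.cond fst (pB1.comp snd) (pB2.comp snd)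
  · rintro ⟨b, ds⟩ p hp
    cases b
    · exact hB2 ds p hp
    · exact hB1 ds p hp
  · exact Primrec.cond (fst.comp fst) (pA1.comp ((snd.comp fst).pair snd))
      (pA2.comp ((snd.comp fst).pair snd))
  · rintro ⟨b, ds⟩ x n hx
    cases b
    · exact hA2 ds x n hx
    · exact hA1 ds x n hx

lemma Good.add {f f' : E → ℝ} (hf : Good R f) (hf' : Good R f') :
    Good R (fun p => f p + f' p) :=
  (good_two hf hf' [[(true, [])], [(false, [])]]).congr fun p => by simp [evP, evM, md]

lemma Good.mul {f f' : E → ℝ} (hf : Good R f) (hf' : Good R f') :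
    Good R (fun p => f p * f' p) :=
  (good_two hf hf' [[(true, []), (false, [])]]).congr fun p => by simp [evP, evM, md]

lemma Good.neg {f : E → ℝ} (hf : Good R f) : Good R (fun p => - f p) :=
  ((good_const (-1)).mul hf).congr fun p => by simp

lemma Good.sub {f f' : E → ℝ} (hf : Good R f) (hf' : Good R f') :
    Good R (fun p => f p - f' p) :=
  (hf.add hf'.neg).congr fun p => by ring

lemma Good.dd {f : E → ℝ} (hf : Good R f) (d : Fin 4) : Good R (dd d f) := by
  obtain ⟨s1, A1, B1, pA1, pB1, hA1, hB1⟩ := hf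
  refine ⟨contDiff_dd s1 d, fun y => A1 (y.1 ++ [d], y.2), fun ds => B1 (ds ++ [d]), ?_, ?_, ?_, ?_⟩
  · exact pA1.comp ((list_append.comp fst (const _)).pair snd)
  · exact pB1.comp (list_append.comp Primrec.id (const _))
  · intro ds x n hx
    rw [md_dd]; exact hA1 _ x n hx
  · intro ds p hp
    rw [md_dd]; exact hB1 _ p hp

lemma good_sum {ι : Type*} (s : Finset ι) {f : ι → E → ℝ} (hf : ∀ i ∈ s, Good R (f i)) :
    Good R (fun p => ∑ i ∈ s, f i p) := by
  classical
  induction s using Finset.induction_on with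
  | empty => exact (good_const 0).congr fun p => by simp
  | insert a s ha ih =>
    refine ((hf a (Finset.mem_insert_self _ _)).add
      (ih fun i hi => hf i (Finset.mem_insert_of_mem hi))).congr fun p => ?_
    rw [Finset.sum_insert ha]

lemma good_prod {ι : Type*} (s : Finset ι) {f : ι → E → ℝ} (hf : ∀ i ∈ s, Good R (f i)) :
    Good R (fun p => ∏ i ∈ s, f i p) := by
  classical
  induction s using Finset.induction_on with
  | empty => exact (good_const 1).congr fun p => by simp
  | insert a s ha ih =>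
    refine ((hf a (Finset.mem_insert_self _ _)).mul
      (ih fun i hi => hf i (Finset.mem_insert_of_mem hi))).congr fun p => ?_
    rw [Finset.prod_insert ha]

lemma dd_comp {f : E → ℝ} (hf : ContDiff ℝ ∞ f) {φ : ℝ → ℝ} {φ' : ℝ} (d : Fin 4) (p : E)
    (h : HasDerivAt φ φ' (f p)) : dd d (fun p => φ (f p)) p = φ' * dd d f p := by
  unfold dd
  have := h.comp_hasFDerivAt p (hf.differentiable (by simp) p).hasFDerivAt
  have e : (fun p => φ (f p)) = φ ∘ f := rfl
  rw [e, this.fderiv]
  simp

lemma exists_lower {f : E → ℝ} (hf : Continuous f) (h0 : ∀ p, f p ≠ 0) (R : ℕ) :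
    ∃ c : ℕ, ∀ p, ‖p‖ ≤ R → |(f p)⁻¹| ≤ c := by
  have hc : Continuous fun p => (f p)⁻¹ := hf.inv₀ h0
  obtain ⟨C, hC⟩ := (isCompact_closedBall (0 : E) R).exists_bound_of_continuousOn hc.continuousOn
  obtain ⟨c, hc⟩ := exists_nat_ge C
  exact ⟨c, fun p hp => (hC p (by simpa using hp)).trans hc⟩

lemma inv_approx {a q : ℝ} {c n : ℕ} (ha : a ≠ 0) (hc : |a⁻¹| ≤ c)
    (hq : |a - q| ≤ 1 / (((2 * c ^ 2 * (n + 1) + 2 * c : ℕ) : ℝ) + 1)) :
    |a⁻¹ - q⁻¹| ≤ 1 / ((n : ℝ) + 1) := by
  have ha' : 0 < |a| := abs_pos.2 ha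
  rw [abs_inv] at hc
  have h1 : 1 ≤ c * |a| := by
    rw [inv_le_iff_one_le_mul₀ ha'] at hc; exact hc
  have hc0 : (0 : ℝ) < c := by
    by_contra h
    have : (c : ℝ) = 0 := le_antisymm (not_lt.1 h) (Nat.cast_nonneg c)
    rw [this] at h1; linarith
  set M : ℝ := ((2 * c ^ 2 * (n + 1) + 2 * c : ℕ) : ℝ) + 1 with hM
  have hM' : M = 2 * c ^ 2 * (n + 1) + 2 * c + 1 := by rw [hM]; push_cast; ring
  have hn : (0 : ℝ) ≤ n := Nat.cast_nonneg n
  have hMpos : 0 < M := by rw [hM']; positivity
  have h2 : |a - q| * M ≤ 1 := by rwa [le_div_iff₀ hMpos] at hq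
  have h3 : |a| - |a - q| ≤ |q| := by
    have := abs_sub_abs_le_abs_sub a (a - q)
    rw [sub_sub_cancel] at this; linarith
  have h4 : |a - q| * (2 * c) ≤ 1 := by
    refine le_trans (mul_le_mul_of_nonneg_left ?_ (abs_nonneg _)) h2
    rw [hM']; nlinarith [sq_nonneg (c : ℝ)]
  have h5 : 1 ≤ 2 * c * |q| := by nlinarith
  have hq0 : 0 < |q| := by
    by_contra h
    have : |q| = 0 := le_antisymm (not_lt.1 h) (abs_nonneg _)
    rw [this] at h5; linarith
  have hq' : q ≠ 0 := abs_pos.1 hq0
  have e : a⁻¹ - q⁻¹ = -(a - q) / (a * q) := by field_simp; ring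
  rw [e, abs_div, abs_neg, abs_mul, div_le_div_iff₀ (by positivity) (by positivity), one_mul]
  have h6 : |a - q| * (2 * c ^ 2 * (n + 1)) ≤ 1 := by
    refine le_trans (mul_le_mul_of_nonneg_left ?_ (abs_nonneg _)) h2
    rw [hM']; nlinarith
  have h7 : 1 ≤ (c * |a|) * (2 * c * |q|) := one_le_mul_of_one_le_of_one_le h1 h5
  have h8 : |a - q| * (n + 1) * (2 * c ^ 2) ≤ |a| * |q| * (2 * c ^ 2) := by nlinarith
  exact le_of_mul_le_mul_right h8 (by positivity)

lemma Good.inv {f : E → ℝ} (hf : Good R f) (h0 : ∀ p, f p ≠ 0) : Good R (fun p => (f p)⁻¹) := by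
  obtain ⟨s1, A1, B1, pA1, pB1, hA1, hB1⟩ := hf
  obtain ⟨c, hc⟩ := exists_lower s1.continuous h0 R
  refine (good_of_atoms (A := List (Fin 4) ⊕ Bool)
    (fun a => Sum.casesOn a (fun ds => md ds f) (fun b => bif b then fun p => (f p)⁻¹ else fun _ => -1))
    ?_ (fun d a => Sum.casesOn a (fun ds => [[Sum.inl (d :: ds)]])
      (fun b => bif b then [[Sum.inr false, Sum.inr true, Sum.inr true, Sum.inl [d]]] else [])) ?_ ?_
    (fun a => Sum.casesOn a B1 (fun b => bif b then c else 1)) ?_ ?_
    (fun y => Sum.casesOn y.1 (fun ds => A1 (ds, y.2))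
      (fun b => bif b then (A1 ([], y.2.1, 2 * c ^ 2 * (y.2.2 + 1) + 2 * c))⁻¹ else -1)) ?_ ?_
    [[Sum.inr true]]).congr fun p => ?_
  · rintro (ds | b)
    · exact contDiff_md s1 ds
    · cases b
      · exact contDiff_const
      · exact s1.inv h0
  · have h1 : Primrec₂ (fun (z : Fin 4 × (List (Fin 4) ⊕ Bool)) (ds : List (Fin 4)) =>
        ([[Sum.inl (z.1 :: ds)]] : List (List (List (Fin 4) ⊕ Bool)))) :=
      (list_cons.comp (list_cons.comp (sumInl.comp (list_cons.comp (fst.comp fst) snd))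
        (const [])) (const [])).to₂
    have h2 : Primrec (fun (z : (Fin 4 × (List (Fin 4) ⊕ Bool)) × Bool) =>
        ([[Sum.inr false, Sum.inr true, Sum.inr true, Sum.inl [z.1.1]]] :
          List (List (List (Fin 4) ⊕ Bool)))) :=
      list_cons.comp (list_cons.comp (const _) (list_cons.comp (const _)
        (list_cons.comp (const _) (list_cons.comp (sumInl.comp
          (list_cons.comp (fst.comp fst) (const []))) (const []))))) (const [])
    exact (Primrec.sumCasesOn snd h1 (Primrec.cond snd h2 (const [])).to₂).to₂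
  · rintro d (ds | b)
    · funext p; simp [evP, evM, md]
    · cases b
      · funext p; simp [evP, dd_const]
      · funext p
        have := dd_comp s1 d p (hasDerivAt_inv (h0 p))
        simp only [cond_true]
        rw [this]
        simp [evP, evM, md, sq, mul_assoc]
  · exact Primrec.sumCasesOn Primrec.id (pB1.comp snd).to₂
      (Primrec.cond snd (const _) (const _)).to₂
  · rintro (ds | b) p hp
    · exact hB1 ds p hp
    · cases b
      · simp
      · exact hc p hp
  · refine Primrec.sumCasesOn fst (pA1.comp (snd.pair (snd.comp fst))).to₂ ?_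
    refine (Primrec.cond snd (rat_inv.comp (pA1.comp ((const []).pair
      ((fst.comp (snd.comp fst)).pair (nat_add.comp (nat_mul.comp (const _)
        (succ.comp (snd.comp (snd.comp fst)))) (const _)))))) (const _)).to₂
  · rintro (ds | b) x n hx
    · exact hA1 ds x n hx
    · cases b
      · simp; positivity
      · simp only [cond_true, Rat.cast_inv]
        exact inv_approx (h0 _) (hc _ hx) (hA1 [] x _ hx)
  · simp [evP, evM]

/-! ### the flat function -/

noncomputable def gk (k : ℕ) (s : ℝ) : ℝ := (s⁻¹) ^ k * expNegInvGlue s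

lemma contDiff_gk (k : ℕ) : ContDiff ℝ ∞ (gk k) := by
  have := expNegInvGlue.contDiff_polynomial_eval_inv_mul (n := ⊤) (Polynomial.X ^ k)
  have e : (fun x : ℝ => (Polynomial.X ^ k : Polynomial ℝ).eval x⁻¹ * expNegInvGlue x) = gk k := by
    funext x; simp [gk]
  rwa [e] at this

lemma hasDerivAt_gk (k : ℕ) (s : ℝ) :
    HasDerivAt (gk k) (gk (k + 2) s - k * gk (k + 1) s) s := by
  have := expNegInvGlue.hasDerivAt_polynomial_eval_inv_mul (Polynomial.X ^ k) s
  have e : (fun x : ℝ => (Polynomial.X ^ k : Polynomial ℝ).eval x⁻¹ * expNegInvGlue x) = gk k := by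
    funext x; simp [gk]
  rw [e] at this
  convert this using 1
  cases k with
  | zero => simp [gk]
  | succ k => simp [gk, Polynomial.derivative_X_pow]; ring

lemma abs_gk_le (k : ℕ) (s : ℝ) : |gk k s| ≤ k.factorial := by
  unfold gk
  rcases le_or_gt s 0 with h | h
  · rw [expNegInvGlue.zero_of_nonpos h]; simp
  · have hu : 0 ≤ s⁻¹ := (inv_pos.2 h).le
    rw [abs_of_nonneg (mul_nonneg (pow_nonneg hu _) (expNegInvGlue.nonneg _))]
    have e : expNegInvGlue s = (Real.exp s⁻¹)⁻¹ := by
      simp [expNegInvGlue, not_le.2 h, Real.exp_neg]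
    have := Real.pow_div_factorial_le_exp _ hu k
    rw [e, ← div_eq_mul_inv, div_le_iff₀ (Real.exp_pos _)]
    rw [div_le_iff₀ (by positivity)] at this
    linarith

def gL (k : ℕ) : ℕ := (k + 2).factorial + k * (k + 1).factorial

lemma gk_lip (k : ℕ) (s t : ℝ) : |gk k s - gk k t| ≤ gL k * |s - t| := by
  have := (convex_univ (𝕜 := ℝ) (E := ℝ)).norm_image_sub_le_of_norm_hasDerivWithin_le
    (f := gk k) (C := gL k) (x := t) (y := s)
    (fun x _ => (hasDerivAt_gk k x).hasDerivWithinAt) (fun x _ => by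
      rw [Real.norm_eq_abs]
      refine (abs_sub _ _).trans ?_
      rw [abs_mul, Nat.abs_cast, gL]
      push_cast
      have h1 := abs_gk_le (k + 2) x
      have h2 := abs_gk_le (k + 1) x
      have := mul_le_mul_of_nonneg_left h2 (Nat.cast_nonneg (α := ℝ) k)
      linarith) trivial trivial
  simpa [Real.norm_eq_abs] using this

lemma exp_approx {u : ℝ} (hu : 0 ≤ u) {N : ℕ} (hN : 0 < N) :
    |Real.exp (-u) - ((1 + u / N) ^ N)⁻¹| ≤ u ^ 2 / N := by
  have hN' : (0 : ℝ) < N := by exact_mod_cast hN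
  set x := u / N with hx
  have hx0 : 0 ≤ x := by positivity
  have hux : u = N * x := by rw [hx]; field_simp
  have h1 : (1 + x) ^ N ≤ Real.exp u := by
    rw [hux, Real.exp_nat_mul]
    exact pow_le_pow_left₀ (by positivity) (by linarith [Real.add_one_le_exp x]) N
  have h2 : Real.exp (-u) ≤ ((1 + x) ^ N)⁻¹ := by
    rw [Real.exp_neg]
    exact inv_anti₀ (by positivity) h1
  have h3 : ((1 + x) ^ N)⁻¹ ≤ Real.exp (-(u / (1 + x))) := by
    have e : -(u / (1 + x)) = N * (-(x / (1 + x))) := by rw [hux]; ring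
    rw [e, Real.exp_nat_mul, ← inv_pow]
    refine pow_le_pow_left₀ (by positivity) ?_ N
    have := Real.add_one_le_exp (-(x / (1 + x)))
    have e2 : -(x / (1 + x)) + 1 = (1 + x)⁻¹ := by field_simp; ring
    rwa [e2] at this
  have h4 : Real.exp (-(u / (1 + x))) - Real.exp (-u) ≤ u - u / (1 + x) := by
    have e : Real.exp (-u) = Real.exp (-(u / (1 + x))) * Real.exp (-(u - u / (1 + x))) := by
      rw [← Real.exp_add]; congr 1; ring
    have h5 := Real.add_one_le_exp (-(u - u / (1 + x)))
    have h6 : Real.exp (-(u / (1 + x))) ≤ 1 := by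
      rw [Real.exp_le_one_iff]; have : 0 ≤ u / (1 + x) := by positivity
      linarith
    have h7 : 0 ≤ u - u / (1 + x) := by
      have := div_le_self hu (show 1 ≤ 1 + x by linarith); linarith
    have h8 := Real.exp_pos (-(u / (1 + x)))
    rw [e]
    nlinarith
  have h9 : u - u / (1 + x) ≤ u ^ 2 / N := by
    have e : u - u / (1 + x) = (u * x) / (1 + x) := by field_simp; ring
    have e2 : u ^ 2 / N = u * x := by rw [hx]; ring
    rw [e, e2]
    exact div_le_self (by positivity) (by linarith)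
  rw [abs_sub_comm, abs_of_nonneg (by linarith)]
  linarith

def gAp (k : ℕ) (q : ℚ) (n : ℕ) : ℚ :=
  if q ≤ 0 then 0 else
    q⁻¹ ^ k * ((1 + q⁻¹ / (((n + 1) * q.den ^ (k + 2) : ℕ) : ℚ)) ^ ((n + 1) * q.den ^ (k + 2)))⁻¹

lemma primrec_gAp : Primrec (fun y : ℕ × ℚ × ℕ => gAp y.1 y.2.1 y.2.2) := by
  have hN : Primrec (fun y : ℕ × ℚ × ℕ => (y.2.2 + 1) * y.2.1.den ^ (y.1 + 2)) :=
    nat_mul.comp (succ.comp (snd.comp snd))
      (nat_pow.comp (rat_den.comp (fst.comp snd)) (nat_add.comp fst (const 2)))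
  have hi : Primrec (fun y : ℕ × ℚ × ℕ => y.2.1⁻¹) := rat_inv.comp (fst.comp snd)
  exact Primrec.ite (rat_le.comp (fst.comp snd) (const 0)) (const 0)
    (rat_mul.comp (rat_pow.comp hi fst) (rat_inv.comp (rat_pow.comp
      (rat_add.comp (const 1) (rat_div.comp hi (rat_natCast.comp hN))) hN)))

lemma gAp_spec (k : ℕ) (q : ℚ) (n : ℕ) : |gk k q - gAp k q n| ≤ 1 / ((n : ℝ) + 1) := by
  unfold gAp gk
  split_ifs with h
  · rw [expNegInvGlue.zero_of_nonpos (by exact_mod_cast h)]
    simp; positivity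
  · have hq : (0 : ℝ) < q := by exact_mod_cast not_le.1 h
    set N := (n + 1) * q.den ^ (k + 2) with hN
    have hNpos : 0 < N := Nat.mul_pos (Nat.succ_pos _) (pow_pos q.den_pos _)
    have e : expNegInvGlue (q : ℝ) = Real.exp (-(q : ℝ)⁻¹) := by
      simp [expNegInvGlue, not_le.2 hq]
    set u : ℝ := (q : ℝ)⁻¹ with hu
    have hu0 : 0 ≤ u := (inv_pos.2 hq).le
    have huden : u ≤ q.den := by
      have h1 : (q : ℝ) = q.num / q.den := by exact_mod_cast (Rat.num_div_den q).symm
      have h2 : (1 : ℝ) ≤ q.num := by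
        have : 0 < q.num := Rat.num_pos.2 (not_le.1 h)
        exact_mod_cast this
      rw [hu, h1, inv_div]
      exact div_le_self (Nat.cast_nonneg _) h2
    have h1 := exp_approx hu0 hNpos
    rw [e]
    simp only [Rat.cast_mul, Rat.cast_pow, Rat.cast_inv, Rat.cast_add, Rat.cast_one, Rat.cast_div,
      Rat.cast_natCast]
    rw [← hu, ← mul_sub, abs_mul, abs_of_nonneg (pow_nonneg hu0 k)]
    refine (mul_le_mul_of_nonneg_left h1 (pow_nonneg hu0 k)).trans ?_
    have hN' : (N : ℝ) = (n + 1) * (q.den : ℝ) ^ (k + 2) := by rw [hN]; push_cast; ring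
    have h2 : u ^ (k + 2) ≤ (q.den : ℝ) ^ (k + 2) := pow_le_pow_left₀ hu0 huden _
    have hd : (0 : ℝ) < (q.den : ℝ) ^ (k + 2) := pow_pos (by exact_mod_cast q.den_pos) _
    rw [← mul_div_assoc, ← pow_add, hN', div_le_div_iff₀ (by positivity) (by positivity)]
    nlinarith [Nat.cast_nonneg (α := ℝ) n]

lemma evP_map_const {A : Type} (g : A → E → ℝ) (m : List A) (k : ℕ) (p : E) :
    evP g ((List.range k).map (fun _ => m)) p = k * evM g m p := by
  simp [evP]

lemma primrec_gL : Primrec gL :=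
  nat_add.comp (nat_factorial.comp (nat_add.comp Primrec.id (const 2)))
    (nat_mul.comp Primrec.id (nat_factorial.comp succ))

lemma Good.glue {f : E → ℝ} (hf : Good R f) : Good R (fun p => expNegInvGlue (f p)) := by
  obtain ⟨s1, A1, B1, pA1, pB1, hA1, hB1⟩ := hf
  refine (good_of_atoms (A := List (Fin 4) ⊕ ℕ)
    (fun a => Sum.casesOn a (fun ds => md ds f)
      (fun k => Nat.casesOn k (fun _ => -1) (fun k p => gk k (f p))))
    ?_ (fun d a => Sum.casesOn a (fun ds => [[Sum.inl (d :: ds)]])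
      (fun k => Nat.casesOn k [] (fun k => [Sum.inr (k + 3), Sum.inl [d]] ::
        (List.range k).map (fun _ => [Sum.inr 0, Sum.inr (k + 2), Sum.inl [d]])))) ?_ ?_
    (fun a => Sum.casesOn a B1 (fun k => k.factorial)) ?_ ?_
    (fun y => Sum.casesOn y.1 (fun ds => A1 (ds, y.2))
      (fun k => Nat.casesOn k (-1) (fun k =>
        gAp k (A1 ([], y.2.1, gL k * (2 * y.2.2 + 2))) (2 * y.2.2 + 1)))) ?_ ?_
    [[Sum.inr 1]]).congr fun p => ?_
  · rintro (ds | k)
    · exact contDiff_md s1 ds
    · cases k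
      · exact contDiff_const
      · exact (contDiff_gk _).comp s1
  · have h1 : Primrec₂ (fun (z : Fin 4 × (List (Fin 4) ⊕ ℕ)) (ds : List (Fin 4)) =>
        ([[Sum.inl (z.1 :: ds)]] : List (List (List (Fin 4) ⊕ ℕ)))) :=
      (list_cons.comp (list_cons.comp (sumInl.comp (list_cons.comp (fst.comp fst) snd))
        (const [])) (const [])).to₂
    have hd : Primrec (fun z : ((Fin 4 × (List (Fin 4) ⊕ ℕ)) × ℕ) × ℕ =>
        ([Sum.inl [z.1.1.1]] : List (List (Fin 4) ⊕ ℕ))) :=
      list_cons.comp (sumInl.comp (list_cons.comp (fst.comp (fst.comp fst)) (const [])))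
        (const [])
    have h3 : Primrec₂ (fun (z : ((Fin 4 × (List (Fin 4) ⊕ ℕ)) × ℕ) × ℕ) (_ : ℕ) =>
        ([Sum.inr 0, Sum.inr (z.2 + 2), Sum.inl [z.1.1.1]] : List (List (Fin 4) ⊕ ℕ))) :=
      ((list_cons.comp (const _) (list_cons.comp
        (sumInr.comp (nat_add.comp snd (const 2))) hd)).comp fst).to₂
    have h2 : Primrec₂ (fun (z : (Fin 4 × (List (Fin 4) ⊕ ℕ)) × ℕ) (k : ℕ) =>
        (([Sum.inr (k + 3), Sum.inl [z.1.1]] ::
          (List.range k).map (fun _ => [Sum.inr 0, Sum.inr (k + 2), Sum.inl [z.1.1]])) :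
          List (List (List (Fin 4) ⊕ ℕ)))) :=
      (list_cons.comp (list_cons.comp (sumInr.comp (nat_add.comp snd (const 3))) hd)
        (list_map (list_range.comp snd) h3)).to₂
    exact (Primrec.sumCasesOn snd h1 (Primrec.nat_casesOn snd (const []) h2).to₂).to₂
  · rintro d (ds | k)
    · funext p; simp [evP, evM, md]
    · cases k with
      | zero => funext p; simp [evP, dd_const]
      | succ k =>
        funext p
        have := dd_comp s1 d p (hasDerivAt_gk k (f p))
        dsimp only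
        rw [this, evP_cons]
        dsimp only
        rw [evP_map_const]
        simp [evM, md]
        ring
  · exact Primrec.sumCasesOn Primrec.id (pB1.comp snd).to₂ (nat_factorial.comp snd).to₂
  · rintro (ds | k) p hp
    · exact hB1 ds p hp
    · cases k with
      | zero => simp
      | succ k =>
        refine (abs_gk_le k (f p)).trans ?_
        exact_mod_cast Nat.factorial_le (Nat.le_succ k)
  · have hn : Primrec (fun z : (((List (Fin 4) ⊕ ℕ) × Pt × ℕ) × ℕ) × ℕ => 2 * z.1.1.2.2) :=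
      nat_double.comp (snd.comp (snd.comp (fst.comp fst)))
    have h2 : Primrec₂ (fun (z : ((List (Fin 4) ⊕ ℕ) × Pt × ℕ) × ℕ) (k : ℕ) =>
        gAp k (A1 ([], z.1.2.1, gL k * (2 * z.1.2.2 + 2))) (2 * z.1.2.2 + 1)) :=
      (primrec_gAp.comp (snd.pair ((pA1.comp ((const []).pair
      ((fst.comp (snd.comp (fst.comp fst))).pair (nat_mul.comp (primrec_gL.comp snd)
        (nat_add.comp hn (const 2)))))).pair (succ.comp hn)))).to₂
    exact Primrec.sumCasesOn fst (pA1.comp (snd.pair (snd.comp fst))).to₂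
      (Primrec.nat_casesOn snd (const (-1 : ℚ)) h2).to₂
  · rintro (ds | k) x n hx
    · exact hA1 ds x n hx
    · cases k with
      | zero => simp; positivity
      | succ k =>
        dsimp only
        set q := A1 ([], x, gL k * (2 * n + 2))
        have h1 := gAp_spec k q (2 * n + 1)
        have h2 := gk_lip k (f (toE x)) q
        have h3 : |f (toE x) - q| ≤ _ := hA1 [] x (gL k * (2 * n + 2)) hx
        have h4 : (gL k : ℝ) * |f (toE x) - q| ≤ 1 / (2 * n + 2) := by
          refine (mul_le_mul_of_nonneg_left h3 (Nat.cast_nonneg _)).trans ?_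
          rw [mul_one_div, div_le_div_iff₀ (by positivity) (by positivity)]
          push_cast; linarith
        have h5 := abs_sub_le (gk k (f (toE x))) (gk k q) (gAp k q (2 * n + 1))
        have e : (1 : ℝ) / (n + 1) = 1 / (2 * n + 2) + 1 / (((2 * n + 1 : ℕ) : ℝ) + 1) := by
          push_cast; field_simp; ring
        rw [e]
        linarith
  · simp [evP, evM, gk]

lemma Good.smoothTransition {f : E → ℝ} (hf : Good R f) :
    Good R (fun p => Real.smoothTransition (f p)) :=
  (hf.glue.mul ((hf.glue.add ((good_const 1).sub hf).glue).inv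
    (fun p => by simpa using (Real.smoothTransition.pos_denom (f p)).ne'))).congr fun p => by
      simp [Real.smoothTransition, div_eq_mul_inv]

/-! ### from `Good` to `Effective` -/

lemma mixedDeriv_eq {U : Field} (hU : ∀ j, ContDiff ℝ ∞ (fun p => U p j)) (ds : List (Fin 4)) :
    mixedDeriv ds U = fun p j => md ds (fun p => U p j) p := by
  induction ds with
  | nil => rfl
  | cons d ds ih =>
    funext p j
    rw [mixedDeriv, ih]
    dsimp only
    rw [fderiv_pi (fun j => (contDiff_md (hU j) ds).differentiable (by simp) p)]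
    rfl

lemma md_eq_zero {f : E → ℝ} {r : ℝ} (h : ∀ p, r < ‖p‖ → f p = 0) (ds : List (Fin 4)) :
    ∀ p, r < ‖p‖ → md ds f p = 0 := by
  induction ds with
  | nil => exact h
  | cons d ds ih =>
    intro p hp
    have : md ds f =ᶠ[nhds p] fun _ => 0 := by
      filter_upwards [(isOpen_lt continuous_const continuous_norm).mem_nhds hp] with q hq
      exact ih q hq
    rw [md, dd, this.fderiv_eq]
    simp

lemma norm_toE_le_iff (x : Pt) :
    ‖toE x‖ ≤ R ↔ |x.1| ≤ R ∧ |x.2 0| ≤ R ∧ |x.2 1| ≤ R ∧ |x.2 2| ≤ R := by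
  rw [norm_prod_le_iff, pi_norm_le_iff_of_nonneg (Nat.cast_nonneg _), Fin.forall_fin_succ,
    Fin.forall_fin_two]
  simp only [toE, ratPoint, Real.norm_eq_abs]
  norm_cast

theorem effective_of_good {U : Field} (hU : ∀ j, Good R (fun p => U p j))
    (h0 : ∀ p, (R : ℝ) < ‖p‖ → U p = 0) : Effective U := by
  choose s A B pA pB hA hB using hU
  refine ⟨fun y j => if |y.2.1.1| ≤ R ∧ |y.2.1.2 0| ≤ R ∧ |y.2.1.2 1| ≤ R ∧ |y.2.1.2 2| ≤ R then
    A j y else 0, fun ds => B 0 ds + B 1 ds + B 2 ds, ?_, ?_, ?_, ?_⟩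
  · apply Primrec.to_comp
    rw [Primrec.fin_curry]
    have hc : ∀ i : Fin 3, PrimrecPred (fun z : (List (Fin 4) × Pt × ℕ) × Fin 3 =>
        |z.1.2.1.2 i| ≤ R) := fun i =>
      rat_le.comp (rat_abs.comp (fin_app.comp (snd.comp (fst.comp (snd.comp fst))) (const i)))
        (const _)
    have hc0 : PrimrecPred (fun z : (List (Fin 4) × Pt × ℕ) × Fin 3 => |z.1.2.1.1| ≤ R) :=
      rat_le.comp (rat_abs.comp (fst.comp (fst.comp (snd.comp fst)))) (const _)
    have hA : Primrec (fun z : (List (Fin 4) × Pt × ℕ) × Fin 3 => A z.2 z.1) := by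
      refine (Primrec.ite (Primrec.eq.comp snd (const 0)) ((pA 0).comp fst)
        (Primrec.ite (Primrec.eq.comp snd (const 1)) ((pA 1).comp fst) ((pA 2).comp fst))).of_eq ?_
      rintro ⟨y, j⟩
      fin_cases j <;> simp
    exact Primrec.ite (hc0.and ((hc 0).and ((hc 1).and (hc 2)))) hA (const 0)
  · exact (nat_add.comp (nat_add.comp (pB 0) (pB 1)) (pB 2)).to_comp
  · intro ds t q n j
    rw [mixedDeriv_eq s]
    dsimp only
    split_ifs with h
    · exact hA j ds (t, q) n ((norm_toE_le_iff (t, q)).2 h)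
    · have h1 : (R : ℝ) < ‖toE (t, q)‖ := not_le.1 fun h' => h ((norm_toE_le_iff (t, q)).1 h')
      have := md_eq_zero (f := fun p => U p j) (fun p hp => by rw [h0 p hp]; rfl) ds _ h1
      change |md ds _ (toE (t, q)) - _| ≤ _
      rw [this]; simp; positivity
  · intro ds p j
    rw [mixedDeriv_eq s]
    dsimp only
    rcases le_or_gt ‖p‖ R with h | h
    · refine (hB j ds p h).trans ?_
      have : B j ds ≤ B 0 ds + B 1 ds + B 2 ds := by fin_cases j <;> simp <;> omega
      exact_mod_cast this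
    · rw [md_eq_zero (f := fun p => U p j) (fun p hp => by rw [h0 p hp]; rfl) ds _ h]
      simp; positivity

end Crest.Agent.R126
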