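import Crest.Agent.R126.Motion

set_option autoImplicit false

open scoped ContDiff
open Crest.AnalysisR.BoxFlow

namespace Crest.Agent.R126

lemma exists_pos_rat_le {ι : Type*} [Finite ι] (f : ι → ℝ) (h : ∀ i, 0 < f i) :
    ∃ δ : ℚ, 0 < δ ∧ ∀ i, (δ : ℝ) ≤ f i := by
  cases isEmpty_or_nonempty ι with
  | inl _ => exact ⟨1, one_pos, fun i => isEmptyElim i⟩
  | inr _ =>
    obtain ⟨i0, hi0⟩ := Finite.exists_min f
    obtain ⟨q, hq0, hq⟩ := exists_rat_btwn (h i0)
    exact ⟨q, by exact_mod_cast hq0, fun i => hq.le.trans (hi0 i)⟩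

lemma exists_nat_forall_le {ι : Type*} [Finite ι] (f : ι → ℝ) : ∃ N : ℕ, 1 ≤ N ∧ ∀ i, f i ≤ N := by
  obtain ⟨M, hM⟩ := Finite.exists_le f
  obtain ⟨N, hN⟩ := exists_nat_ge M
  exact ⟨N + 1, Nat.le_add_left _ _, fun i => (hM i).trans (hN.trans (by push_cast; linarith))⟩

lemma sep_of_disjoint {a a' h h' : Fin 3 → ℚ} (hh : ∀ j, 0 < h j) (hh' : ∀ j, 0 < h' j)
    (hd : Disjoint (box a h) (box a' h')) : ∃ j, (h j : ℝ) + h' j < |(a j : ℝ) - a' j| := by
  by_contra hc
  push Not at hc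
  have hd' := Set.disjoint_left.1 hd
  refine @hd' (fun j => ((h' j : ℝ) * a j + h j * a' j) / (h j + h' j)) (fun j => ?_) (fun j => ?_)
  · have p1 : (0 : ℝ) < h j := by exact_mod_cast hh j
    have p2 : (0 : ℝ) < h' j := by exact_mod_cast hh' j
    have e : ((h' j : ℝ) * a j + h j * a' j) / (h j + h' j) - a j =
        -(h j / (h j + h' j) * (a j - a' j)) := by field_simp; ring
    rw [e, abs_neg, abs_mul, abs_of_pos (by positivity), div_mul_eq_mul_div,
      div_le_iff₀ (by positivity)]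
    exact mul_le_mul_of_nonneg_left (hc j) p1.le
  · have p1 : (0 : ℝ) < h j := by exact_mod_cast hh j
    have p2 : (0 : ℝ) < h' j := by exact_mod_cast hh' j
    have e : ((h' j : ℝ) * a j + h j * a' j) / (h j + h' j) - a' j =
        (h' j / (h j + h' j) * (a j - a' j)) := by field_simp; ring
    rw [e, abs_mul, abs_of_pos (by positivity), div_mul_eq_mul_div,
      div_le_iff₀ (by positivity)]
    exact mul_le_mul_of_nonneg_left (hc j) p2.le

lemma exists_margin {n : ℕ} {a h : Fin n → Fin 3 → ℚ} (hh : ∀ i j, 0 < h i j)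
    (ha : Pairwise fun i i' => Disjoint (box (a i) (h i)) (box (a i') (h i'))) :
    ∃ η : ℚ, 0 < η ∧ ∀ i i', i ≠ i' → ∃ j, (h i j : ℝ) + h i' j + 3 * η ≤ |(a i j : ℝ) - a i' j| := by
  choose J hJ using fun q : {q : Fin n × Fin n // q.1 ≠ q.2} =>
    sep_of_disjoint (hh q.1.1) (hh q.1.2) (ha q.2)
  obtain ⟨η, h0, hη⟩ := exists_pos_rat_le (fun q : {q : Fin n × Fin n // q.1 ≠ q.2} =>
    (|(a q.1.1 (J q) : ℝ) - a q.1.2 (J q)| - (h q.1.1 (J q) + h q.1.2 (J q))) / 3)
    (fun q => by have := hJ q; linarith)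
  refine ⟨η, h0, fun i i' hi => ⟨J ⟨(i, i'), hi⟩, ?_⟩⟩
  have := hη ⟨(i, i'), hi⟩
  dsimp only at this
  linarith

lemma exists_segment_bound {d e : Fin 3 → ℚ} (hd : d ≠ 0) (he : e ∉ Submodule.span ℚ {d}) :
    ∃ δ : ℝ, 0 < δ ∧ ∀ s ∈ Set.Icc (0 : ℝ) 1, ∃ j, δ ≤ |(1 - s) * d j + s * e j| := by
  have hc : Continuous fun s : ℝ => ‖fun j => (1 - s) * (d j : ℝ) + s * e j‖ := by fun_prop
  obtain ⟨δ, h0, hδ⟩ := (isCompact_Icc (a := (0 : ℝ)) (b := 1)).exists_forall_le' hc.continuousOn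
    (a := 0) (by
      intro s _
      rw [norm_pos_iff]
      intro h
      have h' : ∀ j, (1 - s) * (d j : ℝ) + s * e j = 0 := fun j => congrFun h j
      obtain ⟨j0, hj0⟩ : ∃ j, d j ≠ 0 := by
        by_contra hh; push Not at hh; exact hd (funext hh)
      have hj0' : (d j0 : ℝ) ≠ 0 := by exact_mod_cast hj0
      have hs : s ≠ 0 := by
        rintro rfl
        have := h' j0
        simp at this
        exact hj0 this
      apply he
      rw [Submodule.mem_span_singleton]
      refine ⟨e j0 / d j0, funext fun j => ?_⟩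
      have e1 : ((e j0 / d j0 * d j : ℚ) : ℝ) = e j := by
        push_cast
        field_simp
        apply mul_left_cancel₀ hs
        linear_combination (d j : ℝ) * h' j0 - (d j0 : ℝ) * h' j
      exact_mod_cast e1)
  refine ⟨δ, h0, fun s hs => ?_⟩
  by_contra hh
  push Not at hh
  exact absurd ((pi_norm_lt_iff h0).2 hh) (not_lt.2 (hδ s hs))

lemma exists_middle {n : ℕ} {a b : Fin n → Fin 3 → ℚ} (ha : ∀ i i', i ≠ i' → a i ≠ a i')
    (hb : ∀ i i', i ≠ i' → b i ≠ b i') :
    ∃ (m : Fin n → Fin 3 → ℚ) (δ : ℚ), 0 < δ ∧ ∀ i i', i ≠ i' → ∀ s ∈ Set.Icc (0 : ℝ) 1,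
      (∃ j, (δ : ℝ) ≤ |(1 - s) * ((a i j : ℝ) - a i' j) + s * (m i j - m i' j)|) ∧
      (∃ j, (δ : ℝ) ≤ |(1 - s) * ((b i j : ℝ) - b i' j) + s * (m i j - m i' j)|) := by
  let d : (Fin n × Fin n) × Bool → Fin 3 → ℚ := fun q =>
    bif q.2 then a q.1.1 - a q.1.2 else b q.1.1 - b q.1.2
  obtain ⟨u, hu⟩ := Submodule.exists_forall_notMem_of_forall_ne_top
    (fun q => Submodule.span ℚ {d q}) (fun q hq => by
      have h1 := finrank_span_le_card (R := ℚ) ({d q} : Set (Fin 3 → ℚ))
      rw [hq] at h1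
      simp at h1)
  have key : ∀ q : {q : (Fin n × Fin n) × Bool // q.1.1 ≠ q.1.2}, ∃ δ : ℝ, 0 < δ ∧
      ∀ s ∈ Set.Icc (0 : ℝ) 1, ∃ j, δ ≤ |(1 - s) * d q.1 j +
        s * ((((q.1.1.1 : ℕ) : ℚ) - (q.1.1.2 : ℕ)) • u) j| := by
    rintro ⟨⟨⟨i, i'⟩, β⟩, hq⟩
    apply exists_segment_bound
    · cases β
      · exact sub_ne_zero.2 (hb i i' hq)
      · exact sub_ne_zero.2 (ha i i' hq)
    · intro hmem
      apply hu ((i, i'), β)
      have hne : (((i : ℕ) : ℚ) - (i' : ℕ)) ≠ 0 := by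
        rw [sub_ne_zero]
        intro h
        exact hq (Fin.ext (by exact_mod_cast h))
      exact (Submodule.smul_mem_iff _ hne).1 hmem
  choose δ h0 hδ using key
  obtain ⟨δ0, h1, h2⟩ := exists_pos_rat_le δ h0
  refine ⟨fun i j => (i : ℕ) * u j, δ0, h1, fun i i' hi s hs => ⟨?_, ?_⟩⟩
  · obtain ⟨j, hj⟩ := hδ ⟨((i, i'), true), hi⟩ s hs
    refine ⟨j, (h2 _).trans (hj.trans (le_of_eq ?_))⟩
    simp only [d, cond_true, Pi.sub_apply, Pi.smul_apply, smul_eq_mul]
    push_cast
    ring_nf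
  · obtain ⟨j, hj⟩ := hδ ⟨((i, i'), false), hi⟩ s hs
    refine ⟨j, (h2 _).trans (hj.trans (le_of_eq ?_))⟩
    simp only [d, cond_false, Pi.sub_apply, Pi.smul_apply, smul_eq_mul]
    push_cast
    ring_nf

/-- time switches -/
noncomputable def th (m : ℚ) (t : ℝ) : ℝ := Real.smoothTransition (((8 : ℚ) : ℝ) * t - m)

lemma th_mem (m : ℚ) (t : ℝ) : th m t ∈ Set.Icc (0 : ℝ) 1 :=
  ⟨Real.smoothTransition.nonneg _, Real.smoothTransition.le_one _⟩

lemma th_zero {m : ℚ} {t : ℝ} (h : 8 * t ≤ m) : th m t = 0 :=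
  Real.smoothTransition.zero_of_nonpos (by push_cast; linarith)

lemma th_one {m : ℚ} {t : ℝ} (h : (m : ℝ) + 1 ≤ 8 * t) : th m t = 1 :=
  Real.smoothTransition.one_of_one_le (by push_cast; linarith)

lemma good_th (R : ℕ) (m : ℚ) : Good R (fun p => th m p.1) :=
  (((good_const 8).mul good_fst).sub (good_const m)).smoothTransition

theorem main
    (n : ℕ) (a b h k : Fin n → Fin 3 → ℚ)
    (hh : ∀ i j, 0 < h i j) (hk : ∀ i j, 0 < k i j)
    (ha : Pairwise fun i i' => Disjoint (box (a i) (h i)) (box (a i') (h i')))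
    (hb : Pairwise fun i i' => Disjoint (box (b i) (k i)) (box (b i') (k i')))
    (hvol : ∀ i, ∏ j : Fin 3, k i j / h i j = 1) :
    ∃ (U : Field) (Φ : ℝ → (Fin 3 → ℝ) → (Fin 3 → ℝ)),
      ContDiff ℝ ∞ U ∧ HasCompactSupport U ∧ Effective U ∧
      (∀ p : ℝ × (Fin 3 → ℝ), p.1 ∉ Set.Icc (1 / 4 : ℝ) (3 / 4) → U p = 0) ∧
      (∀ p : ℝ × (Fin 3 → ℝ), spaceDiv U p = 0) ∧ IsFlow U Φ ∧
      ∀ i : Fin n, ∃ O : Set (Fin 3 → ℝ), IsOpen O ∧ box (a i) (h i) ⊆ O ∧
        ∀ x ∈ O, Φ 1 x = fun j => (b i j : ℝ) + ((k i j / h i j : ℚ) : ℝ) * (x j - (a i j : ℝ)) := by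
  have hh' : ∀ i j, (0 : ℝ) < h i j := fun i j => by exact_mod_cast hh i j
  have hk' : ∀ i j, (0 : ℝ) < k i j := fun i j => by exact_mod_cast hk i j
  obtain ⟨η1, hη1, s1⟩ := exists_margin hh ha
  obtain ⟨η2, hη2, s2⟩ := exists_margin hk hb
  set η := min η1 η2 with hηdef
  have hη : 0 < η := lt_min hη1 hη2
  have hη' : (0 : ℝ) < η := by exact_mod_cast hη
  have hηa : (η : ℝ) ≤ η1 := by exact_mod_cast min_le_left _ _
  have hηb : (η : ℝ) ≤ η2 := by exact_mod_cast min_le_right _ _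
  obtain ⟨m, δ, hδ, hm⟩ := exists_middle (a := a) (b := b) (fun i i' hi e => by
      obtain ⟨j, hj⟩ := s1 i i' hi
      rw [e, sub_self, abs_zero] at hj
      linarith [hh' i j, hh' i' j]) (fun i i' hi e => by
      obtain ⟨j, hj⟩ := s2 i i' hi
      rw [e, sub_self, abs_zero] at hj
      linarith [hk' i j, hk' i' j])
  have hδ' : (0 : ℝ) < δ := by exact_mod_cast hδ
  let lin : Fin n → Fin 3 → ℝ → ℝ := fun i j t => h i j + th 3 t * ((k i j - h i j : ℚ) : ℝ)
  have lin_ge : ∀ i j t, min (h i j : ℝ) (k i j) ≤ lin i j t := by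
    intro i j t
    have h1 := th_mem 3 t
    have h2 := min_le_left (h i j : ℝ) (k i j)
    have h3 := min_le_right (h i j : ℝ) (k i j)
    simp only [lin]
    push_cast
    nlinarith [h1.1, h1.2]
  have lin_pos : ∀ i j t, 0 < lin i j t := fun i j t =>
    (lt_min (hh' i j) (hk' i j)).trans_le (lin_ge i j t)
  have lin_le : ∀ i j t, lin i j t ≤ h i j + k i j := by
    intro i j t
    have h1 := th_mem 3 t
    simp only [lin]
    push_cast
    nlinarith [h1.1, h1.2, hh' i j, hk' i j]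
  let w : Fin n → Fin 3 → ℝ → ℝ := fun i j t =>
    if j = 2 then ((h i 0 * h i 1 * h i 2 : ℚ) : ℝ) * (lin i 0 t * lin i 1 t)⁻¹ else lin i j t
  have hV : ∀ i, (0 : ℝ) < ((h i 0 * h i 1 * h i 2 : ℚ) : ℝ) := fun i => by
    push_cast; exact mul_pos (mul_pos (hh' i 0) (hh' i 1)) (hh' i 2)
  have w_pos : ∀ i j t, 0 < w i j t := by
    intro i j t
    simp only [w]
    split_ifs
    · exact mul_pos (hV i) (inv_pos.2 (mul_pos (lin_pos i 0 t) (lin_pos i 1 t)))
    · exact lin_pos i j t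
  have w_h : ∀ i j t, th 3 t = 0 → w i j t = h i j := by
    intro i j t ht
    simp only [w, lin, ht]
    split_ifs with hj
    · subst hj
      have := (hh' i 0).ne'
      have := (hh' i 1).ne'
      simp only [zero_mul, add_zero]
      push_cast; field_simp
    · ring
  have w_k : ∀ i j t, th 3 t = 1 → w i j t = k i j := by
    intro i j t ht
    simp only [w, lin, ht]
    split_ifs with hj
    · subst hj
      have h0 := (hh' i 0).ne'
      have h1 := (hh' i 1).ne'
      have h2 := (hh' i 2).ne'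
      have k0 := (hk' i 0).ne'
      have k1 := (hk' i 1).ne'
      have hv := hvol i
      rw [Fin.prod_univ_three] at hv
      have hv' : ((k i 0 : ℝ) / h i 0) * (k i 1 / h i 1) * (k i 2 / h i 2) = 1 := by
        exact_mod_cast hv
      push_cast
      have e : ∀ x y : ℝ, x + 1 * (y - x) = y := fun x y => by ring
      rw [e, e]
      field_simp at hv' ⊢
      linear_combination -hv'
    · push_cast; ring
  obtain ⟨H, -, hH⟩ := exists_nat_forall_le (fun q : Fin n × Fin 3 =>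
    if q.2 = 2 then ((h q.1 0 * h q.1 1 * h q.1 2 : ℚ) : ℝ) *
      (min (h q.1 0 : ℝ) (k q.1 0) * min (h q.1 1 : ℝ) (k q.1 1))⁻¹ else h q.1 q.2 + k q.1 q.2)
  have w_le : ∀ i j t, w i j t ≤ H := by
    intro i j t
    refine le_trans ?_ (hH (i, j))
    simp only [w]
    split_ifs
    · refine mul_le_mul_of_nonneg_left (inv_anti₀ ?_ ?_) (hV i).le
      · exact mul_pos (lt_min (hh' i 0) (hk' i 0)) (lt_min (hh' i 1) (hk' i 1))
      · exact mul_le_mul (lin_ge i 0 t) (lin_ge i 1 t) (lt_min (hh' i 1) (hk' i 1)).le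
          (lin_pos i 0 t).le
    · exact lin_le i j t
  obtain ⟨Λ, hΛ1, hΛ⟩ := exists_nat_forall_le (fun _ : Unit => (2 * (H : ℝ) + 3 * η) / δ)
  have hΛ1' : (1 : ℝ) ≤ Λ := by exact_mod_cast hΛ1
  have hΛδ : 2 * (H : ℝ) + 3 * η ≤ Λ * δ := by
    have := hΛ ()
    rwa [div_le_iff₀ hδ'] at this
  let c : Fin n → Fin 3 → ℝ → ℝ := fun i j t =>
    a i j + th 2 t * (((Λ - 1) * a i j : ℚ) : ℝ) + th 3 t * ((Λ * (m i j - a i j) : ℚ) : ℝ) +
      th 4 t * ((Λ * (b i j - m i j) : ℚ) : ℝ) + th 5 t * (((1 - Λ) * b i j : ℚ) : ℝ)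
  obtain ⟨R, hR1, hR⟩ := exists_nat_forall_le (fun q : Fin n × Fin 3 =>
    |(a q.1 q.2 : ℝ)| + |(((Λ - 1) * a q.1 q.2 : ℚ) : ℝ)| +
      |((Λ * (m q.1 q.2 - a q.1 q.2) : ℚ) : ℝ)| + |((Λ * (b q.1 q.2 - m q.1 q.2) : ℚ) : ℝ)| +
      |(((1 - Λ) * b q.1 q.2 : ℚ) : ℝ)| + H + 2 * η)
  have glin : ∀ i j, Good R (fun p => lin i j p.1) := fun i j =>
    (good_const _).add ((good_th R 3).mul (good_const _))
  have c0 : ∀ i j t, t ≤ 1 / 4 → c i j t = a i j := by
    intro i j t ht
    simp only [c]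
    rw [th_zero (m := 2) (by push_cast; linarith), th_zero (m := 3) (by push_cast; linarith),
      th_zero (m := 4) (by push_cast; linarith), th_zero (m := 5) (by push_cast; linarith)]
    ring
  have c1 : ∀ i j t, 3 / 4 ≤ t → c i j t = b i j := by
    intro i j t ht
    simp only [c]
    rw [th_one (m := 2) (by push_cast; linarith), th_one (m := 3) (by push_cast; linarith),
      th_one (m := 4) (by push_cast; linarith), th_one (m := 5) (by push_cast; linarith)]
    push_cast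
    ring
  have w0 : ∀ i j t, t ≤ 1 / 4 → w i j t = h i j := fun i j t ht =>
    w_h i j t (th_zero (by push_cast; linarith))
  have w1 : ∀ i j t, 3 / 4 ≤ t → w i j t = k i j := fun i j t ht =>
    w_k i j t (th_one (by push_cast; linarith))
  obtain ⟨U, Φ, h1, h2, h3, h4, h5, h6, h7⟩ := motion_flow c w η hη R hR1
    (fun i => ((h i 0 * h i 1 * h i 2 : ℚ) : ℝ))
    (fun i j => ((((good_const _).add ((good_th R 2).mul (good_const _))).add
      ((good_th R 3).mul (good_const _))).add ((good_th R 4).mul (good_const _))).add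
      ((good_th R 5).mul (good_const _)))
    (fun i j => by
      simp only [w]
      split_ifs
      · exact (good_const _).mul (((glin i 0).mul (glin i 1)).inv
          fun p => (mul_pos (lin_pos i 0 p.1) (lin_pos i 1 p.1)).ne')
      · exact glin i j)
    w_pos
    (fun i t => by
      have e0 : w i 0 t = lin i 0 t := by simp [w]
      have e1 : w i 1 t = lin i 1 t := by simp [w]
      have e2 : w i 2 t = ((h i 0 * h i 1 * h i 2 : ℚ) : ℝ) * (lin i 0 t * lin i 1 t)⁻¹ := by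
        simp only [w, if_true]
      rw [e0, e1, e2]
      have := (lin_pos i 0 t).ne'
      have := (lin_pos i 1 t).ne'
      field_simp)
    (fun i j t ht => ⟨by rw [c0 i j t ht, c0 i j 0 (by norm_num)],
      by rw [w0 i j t ht, w0 i j 0 (by norm_num)]⟩)
    (fun i j t ht => ⟨by rw [c1 i j t ht, c1 i j 1 (by norm_num)],
      by rw [w1 i j t ht, w1 i j 1 (by norm_num)]⟩)
    (by
      intro t i i' hi
      rcases le_total t (3 / 8) with t1 | t1
      · obtain ⟨j, hj⟩ := s1 i i' hi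
        have z3 : th 3 t = 0 := th_zero (by push_cast; linarith)
        refine ⟨j, ?_⟩
        rw [w_h i j t z3, w_h i' j t z3]
        simp only [c]
        rw [z3, th_zero (m := 4) (by push_cast; linarith), th_zero (m := 5) (by push_cast; linarith)]
        have e : ∀ x y : ℝ, x + th 2 t * ((Λ - 1) * x) + 0 * 0 + 0 * 0 + 0 * 0 -
            (y + th 2 t * ((Λ - 1) * y) + 0 * 0 + 0 * 0 + 0 * 0) =
            (1 + th 2 t * (Λ - 1)) * (x - y) := fun x y => by ring
        have h2 := (th_mem 2 t).1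
        have h3 : 0 ≤ th 2 t * ((Λ : ℝ) - 1) := mul_nonneg h2 (by linarith)
        have e' := e (a i j) (a i' j)
        simp only [zero_mul] at e' ⊢
        push_cast
        rw [e', abs_mul, abs_of_nonneg (by linarith)]
        nlinarith [abs_nonneg ((a i j : ℝ) - a i' j)]
      rcases le_total t (1 / 2) with t2 | t2
      · obtain ⟨j, hj⟩ := (hm i i' hi (th 3 t) (th_mem 3 t)).1
        refine ⟨j, ?_⟩
        have e : c i j t - c i' j t =
            Λ * ((1 - th 3 t) * ((a i j : ℝ) - a i' j) + th 3 t * (m i j - m i' j)) := by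
          simp only [c]
          rw [th_one (m := 2) (by push_cast; linarith), th_zero (m := 4) (by push_cast; linarith),
            th_zero (m := 5) (by push_cast; linarith)]
          push_cast; ring
        rw [e, abs_mul, Nat.abs_cast]
        nlinarith [w_le i j t, w_le i' j t]
      rcases le_total t (5 / 8) with t3 | t3
      · have hs := th_mem 4 t
        obtain ⟨j, hj⟩ := (hm i i' hi (1 - th 4 t) ⟨by linarith [hs.2], by linarith [hs.1]⟩).2
        refine ⟨j, ?_⟩
        have e : c i j t - c i' j t = Λ * ((1 - (1 - th 4 t)) * ((b i j : ℝ) - b i' j) +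
            (1 - th 4 t) * (m i j - m i' j)) := by
          simp only [c]
          rw [th_one (m := 2) (by push_cast; linarith), th_one (m := 3) (by push_cast; linarith),
            th_zero (m := 5) (by push_cast; linarith)]
          push_cast; ring
        rw [e, abs_mul, Nat.abs_cast]
        nlinarith [w_le i j t, w_le i' j t]
      · obtain ⟨j, hj⟩ := s2 i i' hi
        have z3 : th 3 t = 1 := th_one (by push_cast; linarith)
        refine ⟨j, ?_⟩
        rw [w_k i j t z3, w_k i' j t z3]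
        have e : c i j t - c i' j t = (1 + (1 - th 5 t) * (Λ - 1)) * ((b i j : ℝ) - b i' j) := by
          simp only [c]
          rw [th_one (m := 2) (by push_cast; linarith), z3,
            th_one (m := 4) (by push_cast; linarith)]
          push_cast; ring
        have h3 : 0 ≤ (1 - th 5 t) * ((Λ : ℝ) - 1) :=
          mul_nonneg (by linarith [(th_mem 5 t).2]) (by linarith)
        rw [e, abs_mul, abs_of_nonneg (by linarith)]
        nlinarith [abs_nonneg ((b i j : ℝ) - b i' j)])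
    (by
      intro i j t
      refine le_trans ?_ (hR (i, j))
      have key : ∀ (q : ℚ) (x : ℝ), |th q t * x| ≤ |x| := fun q x => by
        rw [abs_mul, abs_of_nonneg (th_mem q t).1]
        exact mul_le_of_le_one_left (abs_nonneg _) (th_mem q t).2
      have h1 := w_le i j t
      have h2 : |c i j t| ≤ |(a i j : ℝ)| + |(((Λ - 1) * a i j : ℚ) : ℝ)| +
          |((Λ * (m i j - a i j) : ℚ) : ℝ)| + |((Λ * (b i j - m i j) : ℚ) : ℝ)| +
          |(((1 - Λ) * b i j : ℚ) : ℝ)| := by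
        simp only [c]
        refine (abs_add_le _ _).trans (add_le_add ?_ (key _ _))
        refine (abs_add_le _ _).trans (add_le_add ?_ (key _ _))
        refine (abs_add_le _ _).trans (add_le_add ?_ (key _ _))
        exact (abs_add_le _ _).trans (add_le_add le_rfl (key _ _))
      dsimp only
      linarith)
  refine ⟨U, Φ, h1, h2, h3, h4, h5, h6, fun i => ?_⟩
  obtain ⟨O, o1, o2, o3⟩ := h7 i
  refine ⟨O, o1, fun x hx => o2 x fun j => ?_, fun x hx => ?_⟩
  · rw [c0 i j 0 (by norm_num), w0 i j 0 (by norm_num)]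
    exact hx j
  · rw [o3 x hx]
    funext j
    rw [c0 i j 0 (by norm_num), w0 i j 0 (by norm_num), c1 i j 1 (by norm_num),
      w1 i j 1 (by norm_num)]
    push_cast
    ring

end Crest.Agent.R126
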