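import Crest.Agent.Lib.PrimrecRat
import Crest.Prelude.Def_BoxFlow

set_option autoImplicit false

open scoped ContDiff
open Crest.AnalysisR.BoxFlow Crest.Agent.Lib.PrimrecRat Primrec

namespace Crest.Agent.R126

abbrev E : Type := ℝ × (Fin 3 → ℝ)
abbrev Pt : Type := ℚ × (Fin 3 → ℚ)

def toE (x : Pt) : E := ((x.1 : ℝ), ratPoint x.2)

noncomputable def dd (d : Fin 4) (f : E → ℝ) : E → ℝ := fun p => fderiv ℝ f p (direction d)

noncomputable def md : List (Fin 4) → (E → ℝ) → E → ℝ
  | [], f => f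
  | d :: ds, f => dd d (md ds f)

lemma contDiff_dd {f : E → ℝ} (hf : ContDiff ℝ ∞ f) (d : Fin 4) : ContDiff ℝ ∞ (dd d f) := by
  unfold dd
  exact (hf.fderiv_right (m := ∞) (by simp)).clm_apply contDiff_const

lemma contDiff_md {f : E → ℝ} (hf : ContDiff ℝ ∞ f) (ds : List (Fin 4)) :
    ContDiff ℝ ∞ (md ds f) := by
  induction ds with
  | nil => exact hf
  | cons d ds ih => exact contDiff_dd ih d

lemma md_dd (f : E → ℝ) (d : Fin 4) (ds : List (Fin 4)) :
    md ds (dd d f) = md (ds ++ [d]) f := by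
  induction ds with
  | nil => rfl
  | cons e ds ih => simp only [md, List.cons_append, ih]

/-- smooth, with all mixed derivatives effectively approximable and bounded on the ball of
radius `R` -/
def Good (R : ℕ) (f : E → ℝ) : Prop :=
  ContDiff ℝ ∞ f ∧ ∃ (Ap : List (Fin 4) × Pt × ℕ → ℚ) (B : List (Fin 4) → ℕ),
    Primrec Ap ∧ Primrec B ∧
    (∀ ds x n, ‖toE x‖ ≤ R → |md ds f (toE x) - Ap (ds, x, n)| ≤ 1 / ((n : ℝ) + 1)) ∧
    ∀ ds p, ‖p‖ ≤ R → |md ds f p| ≤ B ds

section atoms

variable {A : Type}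

noncomputable def evM (g : A → E → ℝ) (m : List A) (p : E) : ℝ := (m.map (fun a => g a p)).prod

noncomputable def evP (g : A → E → ℝ) (P : List (List A)) (p : E) : ℝ :=
  (P.map (fun m => evM g m p)).sum

def dM (δ : Fin 4 → A → List (List A)) (d : Fin 4) : List A → List (List A)
  | [] => []
  | a :: m => (δ d a).map (· ++ m) ++ (dM δ d m).map (a :: ·)

def dP (δ : Fin 4 → A → List (List A)) (d : Fin 4) (P : List (List A)) : List (List A) :=
  P.flatMap (dM δ d)

def dPs (δ : Fin 4 → A → List (List A)) (ds : List (Fin 4)) (P : List (List A)) :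
    List (List A) := ds.foldr (dP δ) P

def wM (B : A → ℕ) (m : List A) : ℕ := (m.map (fun a => B a + 2)).prod

def wP (B : A → ℕ) (P : List (List A)) : ℕ := (P.map (wM B)).sum

def apM (Ap : A × Pt × ℕ → ℚ) (m : List A) (y : Pt × ℕ) : ℚ := (m.map (fun a => Ap (a, y))).prod

def apP (Ap : A × Pt × ℕ → ℚ) (P : List (List A)) (y : Pt × ℕ) : ℚ :=
  (P.map (fun m => apM Ap m y)).sum

variable {g : A → E → ℝ} {δ : Fin 4 → A → List (List A)}

lemma evM_nil : evM g [] = fun _ => 1 := by funext p; simp [evM]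

lemma evM_cons (a : A) (m : List A) : evM g (a :: m) = fun p => g a p * evM g m p := by
  funext p; simp [evM]

lemma evP_nil : evP g [] = fun _ => 0 := by funext p; simp [evP]

lemma evP_cons (m : List A) (P : List (List A)) :
    evP g (m :: P) = fun p => evM g m p + evP g P p := by
  funext p; simp [evP]

lemma evP_append (P Q : List (List A)) (p : E) : evP g (P ++ Q) p = evP g P p + evP g Q p := by
  simp [evP]

lemma evP_map_append (P : List (List A)) (m : List A) (p : E) :
    evP g (P.map (· ++ m)) p = evP g P p * evM g m p := by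
  induction P with
  | nil => simp [evP]
  | cons m' P ih =>
    rw [List.map_cons, evP_cons, evP_cons]
    simp only [ih, add_mul]
    simp [evM]

lemma evP_map_cons (P : List (List A)) (a : A) (p : E) :
    evP g (P.map (a :: ·)) p = g a p * evP g P p := by
  induction P with
  | nil => simp [evP]
  | cons m' P ih =>
    rw [List.map_cons, evP_cons, evP_cons]
    simp only [ih, mul_add]
    simp [evM]

lemma contDiff_evM (hg : ∀ a, ContDiff ℝ ∞ (g a)) (m : List A) : ContDiff ℝ ∞ (evM g m) := by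
  induction m with
  | nil => rw [evM_nil]; exact contDiff_const
  | cons a m ih => rw [evM_cons]; exact (hg a).mul ih

lemma contDiff_evP (hg : ∀ a, ContDiff ℝ ∞ (g a)) (P : List (List A)) :
    ContDiff ℝ ∞ (evP g P) := by
  induction P with
  | nil => rw [evP_nil]; exact contDiff_const
  | cons m P ih => rw [evP_cons]; exact (contDiff_evM hg m).add ih

lemma dd_const (d : Fin 4) (c : ℝ) : dd d (fun _ => c) = fun _ => 0 := by
  funext p; simp [dd]

lemma dd_add {f f' : E → ℝ} (hf : ContDiff ℝ ∞ f) (hf' : ContDiff ℝ ∞ f') (d : Fin 4) (p : E) :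
    dd d (fun p => f p + f' p) p = dd d f p + dd d f' p := by
  unfold dd
  rw [fderiv_fun_add (hf.differentiable (by simp) p) (hf'.differentiable (by simp) p)]
  rfl

lemma dd_mul {f f' : E → ℝ} (hf : ContDiff ℝ ∞ f) (hf' : ContDiff ℝ ∞ f') (d : Fin 4) (p : E) :
    dd d (fun p => f p * f' p) p = dd d f p * f' p + f p * dd d f' p := by
  unfold dd
  rw [fderiv_fun_mul (hf.differentiable (by simp) p) (hf'.differentiable (by simp) p)]
  simp
  ring

lemma dd_evM (hg : ∀ a, ContDiff ℝ ∞ (g a)) (hδ : ∀ d a, dd d (g a) = evP g (δ d a)) (d : Fin 4)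
    (m : List A) : dd d (evM g m) = evP g (dM δ d m) := by
  induction m with
  | nil => rw [evM_nil, dd_const, dM, evP_nil]
  | cons a m ih =>
    funext p
    rw [evM_cons, dd_mul (hg a) (contDiff_evM hg m), dM, evP_append, evP_map_append, evP_map_cons,
      ih, hδ]

lemma dd_evP (hg : ∀ a, ContDiff ℝ ∞ (g a)) (hδ : ∀ d a, dd d (g a) = evP g (δ d a)) (d : Fin 4)
    (P : List (List A)) : dd d (evP g P) = evP g (dP δ d P) := by
  induction P with
  | nil => rw [evP_nil, dd_const]; simp [dP, evP_nil]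
  | cons m P ih =>
    funext p
    rw [evP_cons, dd_add (contDiff_evM hg m) (contDiff_evP hg P), ih, dd_evM hg hδ]
    simp [dP, evP_append]

lemma md_evP (hg : ∀ a, ContDiff ℝ ∞ (g a)) (hδ : ∀ d a, dd d (g a) = evP g (δ d a))
    (ds : List (Fin 4)) (P : List (List A)) : md ds (evP g P) = evP g (dPs δ ds P) := by
  induction ds with
  | nil => rfl
  | cons d ds ih => rw [md, ih, dd_evP hg hδ]; rfl

lemma abs_evM_le {B : A → ℕ} {p : E} (hB : ∀ a, |g a p| ≤ B a) (m : List A) :
    |evM g m p| ≤ wM B m := by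
  induction m with
  | nil => simp [evM, wM]
  | cons a m ih =>
    rw [evM_cons]
    simp only [wM, List.map_cons, List.prod_cons] at ih ⊢
    rw [abs_mul, Nat.cast_mul]
    refine mul_le_mul ((hB a).trans ?_) ih (abs_nonneg _) (Nat.cast_nonneg _)
    push_cast; linarith

lemma abs_evP_le {B : A → ℕ} {p : E} (hB : ∀ a, |g a p| ≤ B a) (P : List (List A)) :
    |evP g P p| ≤ wP B P := by
  induction P with
  | nil => simp [evP, wP]
  | cons m P ih =>
    rw [evP_cons]
    simp only [wP, List.map_cons, List.sum_cons] at ih ⊢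
    push_cast at ih ⊢
    exact (abs_add_le _ _).trans (add_le_add (abs_evM_le hB m) ih)

lemma abs_evM_sub_le {B : A → ℕ} {Ap : A × Pt × ℕ → ℚ} {p : E} {y : Pt × ℕ} {ε : ℝ}
    (hε0 : 0 ≤ ε) (hε : ε ≤ 1) (hB : ∀ a, |g a p| ≤ B a) (hA : ∀ a, |g a p - Ap (a, y)| ≤ ε)
    (m : List A) : |evM g m p - apM Ap m y| ≤ ε * wM B m := by
  induction m with
  | nil => simp [evM, wM, apM, hε0]
  | cons a m ih =>
    have h1 := abs_evM_le hB m
    rw [evM_cons]
    have e1 : (apM Ap (a :: m) y : ℝ) = Ap (a, y) * apM Ap m y := by simp [apM]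
    have e2 : (wM B (a :: m) : ℝ) = (B a + 2) * wM B m := by simp [wM]
    rw [e1, e2]
    have h2 : |(Ap (a, y) : ℝ)| ≤ B a + 1 := by
      have := abs_sub_abs_le_abs_sub (Ap (a, y) : ℝ) (g a p)
      rw [abs_sub_comm] at this
      linarith [hA a, hB a]
    have e3 : g a p * evM g m p - Ap (a, y) * apM Ap m y =
        (g a p - Ap (a, y)) * evM g m p + Ap (a, y) * (evM g m p - apM Ap m y) := by ring
    dsimp only
    rw [e3]
    refine (abs_add_le _ _).trans ?_
    rw [abs_mul, abs_mul]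
    have h3 := mul_le_mul (hA a) h1 (abs_nonneg _) hε0
    have h4 := mul_le_mul h2 ih (abs_nonneg _) (by positivity)
    nlinarith

lemma abs_evP_sub_le {B : A → ℕ} {Ap : A × Pt × ℕ → ℚ} {p : E} {y : Pt × ℕ} {ε : ℝ}
    (hε0 : 0 ≤ ε) (hε : ε ≤ 1) (hB : ∀ a, |g a p| ≤ B a) (hA : ∀ a, |g a p - Ap (a, y)| ≤ ε)
    (P : List (List A)) : |evP g P p - apP Ap P y| ≤ ε * wP B P := by
  induction P with
  | nil => simp [evP, wP, apP]
  | cons m P ih =>
    rw [evP_cons]
    have e1 : (apP Ap (m :: P) y : ℝ) = apM Ap m y + apP Ap P y := by simp [apP]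
    have e2 : (wP B (m :: P) : ℝ) = wM B m + wP B P := by simp [wP]
    rw [e1, e2]
    have h1 := abs_evM_sub_le hε0 hε hB hA m
    have e3 : evM g m p + evP g P p - (apM Ap m y + apP Ap P y) =
        (evM g m p - apM Ap m y) + (evP g P p - apP Ap P y) := by ring
    dsimp only
    rw [e3, mul_add]
    exact (abs_add_le _ _).trans (add_le_add h1 ih)

variable [Primcodable A]

lemma primrec_dM (hδ : Primrec₂ δ) : Primrec₂ (dM δ) := by
  have h1 : Primrec (fun z : (Fin 4 × List A) × (A × List A × List (List A)) =>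
      (δ z.1.1 z.2.1).map (· ++ z.2.2.1)) :=
    list_map (hδ.comp (fst.comp fst) (fst.comp snd))
      (list_append.comp snd (fst.comp (snd.comp (snd.comp fst)))).to₂
  have h2 : Primrec (fun z : (Fin 4 × List A) × (A × List A × List (List A)) =>
      z.2.2.2.map (z.2.1 :: ·)) :=
    list_map (snd.comp (snd.comp snd)) (list_cons.comp (fst.comp (snd.comp fst)) snd).to₂
  have h := Primrec.list_rec (f := fun x : Fin 4 × List A => x.2)
    (g := fun _ => ([] : List (List A)))
    (h := fun (x : Fin 4 × List A) (y : A × List A × List (List A)) =>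
      (δ x.1 y.1).map (· ++ y.2.1) ++ y.2.2.map (y.1 :: ·)) snd (const [])
      (list_append.comp h1 h2).to₂
  refine h.of_eq fun x => ?_
  obtain ⟨d, m⟩ := x
  dsimp only
  induction m with
  | nil => rfl
  | cons a m ih => simp only [dM, ← ih]

lemma primrec_dP (hδ : Primrec₂ δ) : Primrec₂ (dP δ) :=
  list_flatMap snd ((primrec_dM hδ).comp (fst.comp fst) snd).to₂

lemma primrec_dPs (hδ : Primrec₂ δ) (P : List (List A)) : Primrec (fun ds => dPs δ ds P) :=
  list_foldr (h := fun (_ : List (Fin 4)) (y : Fin 4 × List (List A)) => dP δ y.1 y.2)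
    Primrec.id (const P) ((primrec_dP hδ).comp (fst.comp snd) (snd.comp snd)).to₂

lemma primrec_wP {B : A → ℕ} (hB : Primrec B) : Primrec (wP B) :=
  nat_list_sum.comp (list_map Primrec.id (nat_list_prod.comp (list_map snd
    (nat_add.comp (hB.comp snd) (const 2)).to₂)).to₂)

lemma primrec_apP {Ap : A × Pt × ℕ → ℚ} (hA : Primrec Ap) : Primrec₂ (apP Ap) :=
  rat_list_sum.comp (list_map fst (rat_list_prod.comp (list_map snd
    (hA.comp (snd.pair (snd.comp (fst.comp fst)))).to₂)).to₂)

theorem good_of_atoms {R : ℕ} (g : A → E → ℝ) (hg : ∀ a, ContDiff ℝ ∞ (g a))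
    (δ : Fin 4 → A → List (List A)) (hδp : Primrec₂ δ) (hδ : ∀ d a, dd d (g a) = evP g (δ d a))
    (B : A → ℕ) (hBp : Primrec B) (hB : ∀ a p, ‖p‖ ≤ R → |g a p| ≤ B a)
    (Ap : A × Pt × ℕ → ℚ) (hAp : Primrec Ap)
    (hA : ∀ a x n, ‖toE x‖ ≤ R → |g a (toE x) - Ap (a, x, n)| ≤ 1 / ((n : ℝ) + 1))
    (P : List (List A)) : Good R (evP g P) := by
  refine ⟨contDiff_evP hg P, fun y => apP Ap (dPs δ y.1 P)
    (y.2.1, (y.2.2 + 1) * wP B (dPs δ y.1 P)), fun ds => wP B (dPs δ ds P), ?_, ?_, ?_, ?_⟩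
  · exact (primrec_apP hAp).comp ((primrec_dPs hδp P).comp fst)
      ((fst.comp snd).pair (nat_mul.comp (succ.comp (snd.comp snd))
        ((primrec_wP hBp).comp ((primrec_dPs hδp P).comp fst))))
  · exact (primrec_wP hBp).comp (primrec_dPs hδp P)
  · intro ds x n hx
    rw [md_evP hg hδ]
    set W := wP B (dPs δ ds P)
    have h := abs_evP_sub_le (g := g) (B := B) (Ap := Ap) (p := toE x) (y := (x, (n + 1) * W))
      (ε := 1 / ((((n + 1) * W : ℕ) : ℝ) + 1)) (by positivity)
      (by rw [div_le_one (by positivity)]; linarith [Nat.cast_nonneg (α := ℝ) ((n + 1) * W)])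
      (fun a => hB a _ hx) (fun a => hA a x _ hx) (dPs δ ds P)
    refine h.trans ?_
    change _ * (W : ℝ) ≤ _
    rw [div_mul_eq_mul_div, div_le_div_iff₀ (by positivity) (by positivity)]
    push_cast
    nlinarith [Nat.cast_nonneg (α := ℝ) W, Nat.cast_nonneg (α := ℝ) n]
  · intro ds p hp
    rw [md_evP hg hδ]
    exact abs_evP_le (fun a => hB a p hp) _

end atoms

end Crest.Agent.R126
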