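import Crest.Agent.R126.Closure

set_option autoImplicit false

open scoped ContDiff
open Crest.AnalysisR.BoxFlow

namespace Crest.Agent.R126

lemma exists_global_solution {U : Field} (hU : ContDiff ℝ ∞ U) (hc : HasCompactSupport U)
    (h0 : ∀ p : E, p.1 ∉ Set.Icc (1 / 4 : ℝ) (3 / 4) → U p = 0) (x : Fin 3 → ℝ) :
    ∃ γ : ℝ → (Fin 3 → ℝ), γ 0 = x ∧ ∀ t, HasDerivAt γ (U (t, γ t)) t := by
  obtain ⟨K, hK⟩ := ContDiff.lipschitzWith_of_hasCompactSupport hc hU (by simp)
  obtain ⟨C, hC⟩ := hc.exists_bound_of_continuous hU.continuous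
  have hC0 : 0 ≤ C := (norm_nonneg _).trans (hC 0)
  have hPL : IsPicardLindelof (fun t y => U (t, y)) (tmin := 0) (tmax := 1) ⟨0, by simp⟩ x
      ⟨C, hC0⟩ 0 ⟨C, hC0⟩ K :=
    { lipschitzOnWith := fun t _ => by
        have := hK.comp (LipschitzWith.prodMk_left (β := Fin 3 → ℝ) t)
        rw [mul_one] at this
        exact this.lipschitzOnWith
      continuousOn := fun y _ => (hU.continuous.comp (by fun_prop)).continuousOn
      norm_le := fun t _ y _ => hC _
      mul_max_le := by simp }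
  obtain ⟨α, hα0, hα⟩ := hPL.exists_eq_forall_mem_Icc_hasDerivWithinAt₀
  refine ⟨fun t => α (max 0 (min t 1)), by simpa using hα0, fun t => ?_⟩
  have hu : (Set.univ : Set ℝ) = (Set.Iic 0 ∪ Set.Icc 0 1) ∪ Set.Ici 1 := by
    ext s; simp only [Set.mem_univ, Set.mem_union, Set.mem_Iic, Set.mem_Icc, Set.mem_Ici, true_iff]
    rcases le_total s 0 with h | h
    · exact Or.inl (Or.inl h)
    · rcases le_total s 1 with h' | h'
      · exact Or.inl (Or.inr ⟨h, h'⟩)
      · exact Or.inr h'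
  rw [← hasDerivWithinAt_univ, hu]
  refine HasDerivWithinAt.union (HasDerivWithinAt.union ?_ ?_) ?_
  · by_cases ht : t ∈ Set.Iic (0 : ℝ)
    · rw [h0 _ (fun h => by have := h.1; simp at ht this; linarith)]
      refine (hasDerivWithinAt_const t _ (α 0)).congr_of_mem (fun s hs => ?_) ht
      rw [max_eq_left ((min_le_left _ _).trans hs)]
    · exact HasFDerivWithinAt.of_notMem_closure (by rwa [isClosed_Iic.closure_eq])
  · by_cases ht : t ∈ Set.Icc (0 : ℝ) 1
    · have e : ∀ s ∈ Set.Icc (0 : ℝ) 1, max 0 (min s 1) = s := fun s hs => by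
        rw [min_eq_left hs.2, max_eq_right hs.1]
      have := hα t ht
      dsimp only
      rw [e t ht]
      exact this.congr_of_mem (fun s hs => by rw [e s hs]) ht
    · exact HasFDerivWithinAt.of_notMem_closure (by rwa [isClosed_Icc.closure_eq])
  · by_cases ht : t ∈ Set.Ici (1 : ℝ)
    · rw [h0 _ (fun h => by have := h.2; simp at ht this; linarith)]
      refine (hasDerivWithinAt_const t _ (α 1)).congr_of_mem (fun s hs => ?_) ht
      rw [min_eq_right hs, max_eq_right zero_le_one]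
    · exact HasFDerivWithinAt.of_notMem_closure (by rwa [isClosed_Ici.closure_eq])

lemma direction_succ (k : Fin 3) : direction k.succ = (0, Pi.single k 1) := by
  simp [direction]

lemma direction_zero : direction 0 = (1, 0) := by simp [direction]

lemma dd_comm {f : E → ℝ} (hf : ContDiff ℝ ∞ f) (d e : Fin 4) (p : E) :
    dd d (dd e f) p = dd e (dd d f) p := by
  have h1 : DifferentiableAt ℝ (fderiv ℝ f) p :=
    (hf.fderiv_right (m := ∞) (by simp)).differentiable (by simp) p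
  have key : ∀ v w : E, fderiv ℝ (fun q => fderiv ℝ f q v) p w = fderiv ℝ (fderiv ℝ f) p w v := by
    intro v w
    rw [fderiv_clm_apply h1 (differentiableAt_const v)]
    simp
  have hs : IsSymmSndFDerivAt ℝ f p := hf.contDiffAt.isSymmSndFDerivAt (by
    simp only [minSmoothness_of_isRCLikeNormedField]
    exact WithTop.coe_le_coe.2 le_top)
  unfold dd
  rw [key, key, hs]

lemma dd_congr {f f' : E → ℝ} {p : E} (h : f =ᶠ[nhds p] f') (d : Fin 4) : dd d f p = dd d f' p := by
  unfold dd; rw [h.fderiv_eq]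

lemma dd_neg (f : E → ℝ) (d : Fin 4) : dd d (fun p => - f p) = fun p => - dd d f p := by
  funext p
  unfold dd
  rw [fderiv_fun_neg]; rfl

lemma dd_sum {ι : Type*} (s : Finset ι) {f : ι → E → ℝ} (hf : ∀ i, ContDiff ℝ ∞ (f i)) (d : Fin 4)
    (p : E) : dd d (fun p => ∑ i ∈ s, f i p) p = ∑ i ∈ s, dd d (f i) p := by
  unfold dd
  rw [fderiv_fun_sum (fun i _ => (hf i).differentiable (by simp) p)]
  simp

lemma contDiff_of_good_fst {γ : ℝ → ℝ} (h : ContDiff ℝ ∞ (fun p : E => γ p.1)) :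
    ContDiff ℝ ∞ γ :=
  h.comp (f := fun t : ℝ => ((t, 0) : E)) (by fun_prop)

lemma Good.deriv_fst {R : ℕ} {γ : ℝ → ℝ} (h : Good R (fun p : E => γ p.1)) :
    Good R (fun p : E => deriv γ p.1) :=
  (h.dd 0).congr fun p => by
    rw [dd_comp contDiff_fst 0 p
      ((contDiff_of_good_fst h.1).differentiable (by simp) p.1).hasDerivAt, dd_fst, direction_zero]
    simp

/-- derivative along a space direction of the explicit potential -/
lemma dd_potential {v1 v2 k1 k2 c1 c2 : ℝ → ℝ} (j k : Fin 3) (p : E)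
    (hv1 : ContDiff ℝ ∞ v1) (hv2 : ContDiff ℝ ∞ v2) (hk1 : ContDiff ℝ ∞ k1) (hk2 : ContDiff ℝ ∞ k2)
    (hc1 : ContDiff ℝ ∞ c1) (hc2 : ContDiff ℝ ∞ c2) :
    dd k.succ (fun p : E => (v1 p.1 * (p.2 k - c2 p.1) - v2 p.1 * (p.2 j - c1 p.1)) * ((1 / 2 : ℚ) : ℝ) +
      (k1 p.1 - k2 p.1) * (p.2 j - c1 p.1) * (p.2 k - c2 p.1) * ((1 / 3 : ℚ) : ℝ)) p =
      (v1 p.1 - v2 p.1 * (Pi.single k 1 : Fin 3 → ℝ) j) / 2 +
      (k1 p.1 - k2 p.1) * ((Pi.single k 1 : Fin 3 → ℝ) j * (p.2 k - c2 p.1) + (p.2 j - c1 p.1)) / 3 := by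
  have hline : HasDerivAt (fun s : ℝ => p + s • direction k.succ) (direction k.succ) 0 := by
    simpa using ((hasDerivAt_id (0 : ℝ)).smul_const (direction k.succ)).const_add p
  set F : E → ℝ := fun p : E =>
    (v1 p.1 * (p.2 k - c2 p.1) - v2 p.1 * (p.2 j - c1 p.1)) * ((1 / 2 : ℚ) : ℝ) +
      (k1 p.1 - k2 p.1) * (p.2 j - c1 p.1) * (p.2 k - c2 p.1) * ((1 / 3 : ℚ) : ℝ) with hF
  have hFd : ContDiff ℝ ∞ F := by rw [hF]; fun_prop
  have h1 : HasDerivAt (fun s : ℝ => F (p + s • direction k.succ)) (dd k.succ F p) 0 := by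
    have := (hFd.differentiable (by simp) p).hasFDerivAt
    exact HasFDerivAt.comp_hasDerivAt_of_eq 0 this hline (by simp)
  refine h1.unique ?_
  set δ : ℝ := (Pi.single k 1 : Fin 3 → ℝ) j
  have e : (fun s : ℝ => F (p + s • direction k.succ)) = fun s : ℝ =>
      (v1 p.1 * (p.2 k + s - c2 p.1) - v2 p.1 * (p.2 j + s * δ - c1 p.1)) * (1 / 2) +
      (k1 p.1 - k2 p.1) * (p.2 j + s * δ - c1 p.1) * (p.2 k + s - c2 p.1) * (1 / 3) := by
    funext s
    simp [hF, direction_succ, δ]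
  rw [e]
  have a1 : HasDerivAt (fun s : ℝ => p.2 k + s - c2 p.1) 1 0 :=
    ((hasDerivAt_id (0 : ℝ)).const_add _).sub_const _
  have a2 : HasDerivAt (fun s : ℝ => p.2 j + s * δ - c1 p.1) δ 0 := by
    simpa using (((hasDerivAt_id (0 : ℝ)).mul_const δ).const_add (p.2 j)).sub_const (c1 p.1)
  have := (((a1.const_mul (v1 p.1)).sub (a2.const_mul (v2 p.1))).mul_const (1 / 2)).add
    (((a2.const_mul (k1 p.1 - k2 p.1)).mul a1).mul_const (1 / 3))
  refine HasDerivAt.congr_deriv this ?_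
  ring

theorem motion_field {n : ℕ} (c w : Fin n → Fin 3 → ℝ → ℝ) (η : ℚ) (hη : 0 < η) (R : ℕ)
    (hR : 1 ≤ R) (V : Fin n → ℝ)
    (gc : ∀ i j, Good R (fun p => c i j p.1)) (gw : ∀ i j, Good R (fun p => w i j p.1))
    (hpos : ∀ i j t, 0 < w i j t) (hvol : ∀ i t, w i 0 t * w i 1 t * w i 2 t = V i)
    (ht0 : ∀ i j t, t ≤ 1 / 4 → c i j t = c i j 0 ∧ w i j t = w i j 0)
    (ht1 : ∀ i j t, 3 / 4 ≤ t → c i j t = c i j 1 ∧ w i j t = w i j 1)
    (hsep : ∀ t i i', i ≠ i' → ∃ j, w i j t + w i' j t + 3 * η ≤ |c i j t - c i' j t|)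
    (hbdd : ∀ i j t, |c i j t| + w i j t + 2 * η ≤ R) :
    ∃ U : Field, ContDiff ℝ ∞ U ∧ HasCompactSupport U ∧ Effective U ∧
      (∀ p : E, p.1 ∉ Set.Icc (1 / 4 : ℝ) (3 / 4) → U p = 0) ∧ (∀ p : E, spaceDiv U p = 0) ∧
      ∀ i (p : E), (∀ j, |p.2 j - c i j p.1| < w i j p.1 + η) → ∀ j,
        U p j = deriv (c i j) p.1 + deriv (w i j) p.1 * (w i j p.1)⁻¹ * (p.2 j - c i j p.1) := by
  have hη' : (0 : ℝ) < η := by exact_mod_cast hη
  have sc : ∀ i j, ContDiff ℝ ∞ (c i j) := fun i j => contDiff_of_good_fst (gc i j).1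
  have sw : ∀ i j, ContDiff ℝ ∞ (w i j) := fun i j => contDiff_of_good_fst (gw i j).1
  let κ : Fin n → Fin 3 → ℝ → ℝ := fun i j t => deriv (w i j) t * (w i j t)⁻¹
  have gκ : ∀ i j, Good R (fun p => κ i j p.1) := fun i j =>
    (gw i j).deriv_fst.mul ((gw i j).inv fun p => (hpos i j p.1).ne')
  let χ : Fin n → E → ℝ := fun i p => ∏ j : Fin 3,
    (Real.smoothTransition ((c i j p.1 + w i j p.1 + ((2 * η : ℚ) : ℝ) - p.2 j) * ((η⁻¹ : ℚ) : ℝ)) *
      Real.smoothTransition ((p.2 j - c i j p.1 + w i j p.1 + ((2 * η : ℚ) : ℝ)) * ((η⁻¹ : ℚ) : ℝ)))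
  have gχ : ∀ i, Good R (χ i) := fun i => good_prod _ fun j _ =>
    (((((gc i j).add (gw i j)).add (good_const _)).sub (good_snd j)).mul
      (good_const _)).smoothTransition.mul
    (((((good_snd j).sub (gc i j)).add (gw i j)).add (good_const _)).mul
      (good_const _)).smoothTransition
  let A : Fin n → Fin 3 → Fin 3 → E → ℝ := fun i j k p =>
    (deriv (c i j) p.1 * (p.2 k - c i k p.1) - deriv (c i k) p.1 * (p.2 j - c i j p.1)) *
      ((1 / 2 : ℚ) : ℝ) +
    (κ i j p.1 - κ i k p.1) * (p.2 j - c i j p.1) * (p.2 k - c i k p.1) * ((1 / 3 : ℚ) : ℝ)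
  have gA : ∀ i j k, Good R (A i j k) := fun i j k =>
    ((((gc i j).deriv_fst.mul ((good_snd k).sub (gc i k))).sub
      ((gc i k).deriv_fst.mul ((good_snd j).sub (gc i j)))).mul (good_const _)).add
    (((((gκ i j).sub (gκ i k)).mul ((good_snd j).sub (gc i j))).mul
      ((good_snd k).sub (gc i k))).mul (good_const _))
  let P : Fin 3 → Fin 3 → E → ℝ := fun j k p => ∑ i, χ i p * A i j k p
  have gP : ∀ j k, Good R (P j k) := fun j k => good_sum _ fun i _ => (gχ i).mul (gA i j k)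
  let U : Field := fun p j => ∑ k : Fin 3, dd k.succ (P j k) p
  have gU : ∀ j, Good R (fun p => U p j) := fun j => good_sum _ fun k _ => (gP j k).dd _
  have hχ0 : ∀ i (p : E) j, w i j p.1 + 2 * η ≤ |p.2 j - c i j p.1| → χ i p = 0 := by
    intro i p j h
    refine Finset.prod_eq_zero (Finset.mem_univ j) ?_
    rcases le_abs'.1 h with h | h
    · rw [Real.smoothTransition.zero_of_nonpos (x := (p.2 j - c i j p.1 + w i j p.1 + _) * _),
        mul_zero]
      push_cast
      exact mul_nonpos_of_nonpos_of_nonneg (by linarith) (inv_nonneg.2 hη'.le)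
    · rw [Real.smoothTransition.zero_of_nonpos (x := (c i j p.1 + w i j p.1 + _ - _) * _),
        zero_mul]
      push_cast
      exact mul_nonpos_of_nonpos_of_nonneg (by linarith) (inv_nonneg.2 hη'.le)
  have hχ1 : ∀ i (p : E), (∀ j, |p.2 j - c i j p.1| < w i j p.1 + η) → χ i p = 1 := by
    intro i p h
    refine Finset.prod_eq_one fun j _ => ?_
    have h1 := abs_lt.1 (h j)
    rw [Real.smoothTransition.one_of_one_le, Real.smoothTransition.one_of_one_le, mul_one]
    · push_cast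
      rw [← div_eq_mul_inv, le_div_iff₀ hη']; linarith
    · push_cast
      rw [← div_eq_mul_inv, le_div_iff₀ hη']; linarith
  have hderiv0 : ∀ t : ℝ, t ∉ Set.Icc (1 / 4 : ℝ) (3 / 4) → ∀ i j,
      deriv (c i j) t = 0 ∧ deriv (w i j) t = 0 := by
    intro t ht i j
    rw [Set.mem_Icc, not_and_or, not_le, not_le] at ht
    rcases ht with ht | ht
    · have e1 : c i j =ᶠ[nhds t] fun _ => c i j 0 := by
        filter_upwards [gt_mem_nhds ht] with s hs using (ht0 i j s hs.le).1
      have e2 : w i j =ᶠ[nhds t] fun _ => w i j 0 := by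
        filter_upwards [gt_mem_nhds ht] with s hs using (ht0 i j s hs.le).2
      rw [e1.deriv_eq, e2.deriv_eq]; simp
    · have e1 : c i j =ᶠ[nhds t] fun _ => c i j 1 := by
        filter_upwards [lt_mem_nhds ht] with s hs using (ht1 i j s hs.le).1
      have e2 : w i j =ᶠ[nhds t] fun _ => w i j 1 := by
        filter_upwards [lt_mem_nhds ht] with s hs using (ht1 i j s hs.le).2
      rw [e1.deriv_eq, e2.deriv_eq]; simp
  have hPt : ∀ p : E, p.1 ∉ Set.Icc (1 / 4 : ℝ) (3 / 4) → ∀ j k, P j k p = 0 := by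
    intro p hp j k
    refine Finset.sum_eq_zero fun i _ => ?_
    simp only [A, κ, (hderiv0 _ hp i _).1, (hderiv0 _ hp i _).2]
    simp
  have hPR : ∀ p : E, (R : ℝ) < ‖p‖ → ∀ j k, P j k p = 0 := by
    intro p hp j k
    rw [Prod.norm_def, lt_max_iff] at hp
    rcases hp with hp | hp
    · apply hPt
      intro h
      have h1 : (1 : ℝ) ≤ R := by exact_mod_cast hR
      rw [Real.norm_eq_abs, abs_of_nonneg (by linarith [h.1])] at hp
      linarith [h.2]
    · obtain ⟨l, hl⟩ : ∃ l, (R : ℝ) < |p.2 l| := by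
        by_contra hh
        push Not at hh
        exact absurd ((pi_norm_le_iff_of_nonneg (Nat.cast_nonneg _)).2 hh) (not_le.2 hp)
      refine Finset.sum_eq_zero fun i _ => ?_
      rw [hχ0 i p l, zero_mul]
      have h1 := hbdd i l p.1
      have h2 := abs_sub_abs_le_abs_sub (p.2 l) (c i l p.1)
      linarith
  have hU0 : ∀ (s : Set E), IsOpen s → (∀ p ∈ s, ∀ j k, P j k p = 0) → ∀ p ∈ s, U p = 0 := by
    intro s hs h p hp
    funext j
    refine Finset.sum_eq_zero fun k _ => ?_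
    have : P j k =ᶠ[nhds p] fun _ => 0 := by
      filter_upwards [hs.mem_nhds hp] with q hq using h q hq j k
    rw [dd_congr this, dd_const]
  have hUR : ∀ p : E, (R : ℝ) < ‖p‖ → U p = 0 :=
    hU0 {p | (R : ℝ) < ‖p‖} (isOpen_lt continuous_const continuous_norm) hPR
  have sU : ContDiff ℝ ∞ U := contDiff_pi.2 fun j => (gU j).1
  refine ⟨U, sU, ?_, effective_of_good gU hUR, ?_, ?_, ?_⟩
  · refine HasCompactSupport.intro (isCompact_closedBall (0 : E) R) fun p hp => hUR p ?_
    simpa using hp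
  · exact hU0 {p | p.1 ∉ Set.Icc (1 / 4 : ℝ) (3 / 4)}
      (isClosed_Icc.isOpen_compl.preimage continuous_fst) hPt
  · intro p
    have e1 : spaceDiv U p = ∑ j : Fin 3, ∑ k : Fin 3, dd j.succ (dd k.succ (P j k)) p := by
      unfold spaceDiv
      refine Finset.sum_congr rfl fun j _ => ?_
      rw [← dd_sum _ (fun k => contDiff_dd (gP j k).1 _), ← direction_succ]
      have := congrFun (congrFun (mixedDeriv_eq (U := U) (fun j => (gU j).1) [j.succ]) p) j
      exact this
    have e2 : ∀ j k, P k j = fun p => - P j k p := by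
      intro j k
      funext q
      simp only [P, A]
      rw [← Finset.sum_neg_distrib]
      refine Finset.sum_congr rfl fun i _ => ?_
      ring
    have e3 : ∑ j : Fin 3, ∑ k : Fin 3, dd j.succ (dd k.succ (P j k)) p =
        - ∑ j : Fin 3, ∑ k : Fin 3, dd j.succ (dd k.succ (P j k)) p := by
      conv_lhs => rw [Finset.sum_comm]
      rw [← Finset.sum_neg_distrib]
      refine Finset.sum_congr rfl fun j _ => ?_
      rw [← Finset.sum_neg_distrib]
      refine Finset.sum_congr rfl fun k _ => ?_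
      rw [dd_comm (gP k j).1, e2 j k, dd_neg, dd_neg]
    rw [e1]; linarith
  · intro i p hp j
    have hopen : IsOpen {q : E | ∀ j, |q.2 j - c i j q.1| < w i j q.1 + η} := by
      rw [Set.ofPred_forall]
      refine isOpen_iInter_of_finite fun j => isOpen_lt ?_ ?_
      · have := (sc i j).continuous; fun_prop
      · have := (sw i j).continuous; fun_prop
    have hloc : ∀ k, P j k =ᶠ[nhds p] A i j k := by
      intro k
      filter_upwards [hopen.mem_nhds hp] with q hq
      simp only [P]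
      rw [Finset.sum_eq_single i, hχ1 i q hq, one_mul]
      · intro i' _ hi'
        obtain ⟨l, hl⟩ := hsep q.1 i i' (Ne.symm hi')
        rw [hχ0 i' q l, zero_mul]
        have h1 := hq l
        have h2 := abs_sub_le (c i l q.1) (q.2 l) (c i' l q.1)
        rw [abs_sub_comm (c i l q.1) (q.2 l)] at h2
        linarith
      · intro h; exact absurd (Finset.mem_univ i) h
    have hκ : κ i 0 p.1 + κ i 1 p.1 + κ i 2 p.1 = 0 := by
      have d : ∀ l, HasDerivAt (w i l) (deriv (w i l) p.1) p.1 := fun l =>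
        ((sw i l).differentiable (by simp) p.1).hasDerivAt
      have h1 := ((d 0).mul (d 1)).mul (d 2)
      have e : (w i 0 * w i 1 * w i 2) = fun _ => V i := funext fun t => hvol i t
      rw [e] at h1
      have h2 := h1.unique (hasDerivAt_const _ _)
      simp only [Pi.mul_apply] at h2
      simp only [κ]
      have p0 := (hpos i 0 p.1).ne'
      have p1 := (hpos i 1 p.1).ne'
      have p2 := (hpos i 2 p.1).ne'
      field_simp
      linear_combination h2
    have sκ : ∀ l, ContDiff ℝ ∞ (κ i l) := fun l => contDiff_of_good_fst (gκ i l).1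
    have sv : ∀ l, ContDiff ℝ ∞ (deriv (c i l)) := fun l =>
      contDiff_of_good_fst (gc i l).deriv_fst.1
    have e : U p j = ∑ k : Fin 3, ((deriv (c i j) p.1 -
        deriv (c i k) p.1 * (Pi.single k 1 : Fin 3 → ℝ) j) / 2 + (κ i j p.1 - κ i k p.1) *
        ((Pi.single k 1 : Fin 3 → ℝ) j * (p.2 k - c i k p.1) + (p.2 j - c i j p.1)) / 3) := by
      refine Finset.sum_congr rfl fun k _ => ?_
      rw [dd_congr (hloc k)]
      exact dd_potential j k p (sv j) (sv k) (sκ j) (sκ k) (sc i j) (sc i k)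
    rw [e, Fin.sum_univ_three]
    change _ = deriv (c i j) p.1 + κ i j p.1 * (p.2 j - c i j p.1)
    fin_cases j
    · simp
      linear_combination (-(p.2 0 - c i 0 p.1) / 3) * hκ
    · simp
      linear_combination (-(p.2 1 - c i 1 p.1) / 3) * hκ
    · simp
      linear_combination (-(p.2 2 - c i 2 p.1) / 3) * hκ

theorem motion_flow {n : ℕ} (c w : Fin n → Fin 3 → ℝ → ℝ) (η : ℚ) (hη : 0 < η) (R : ℕ)
    (hR : 1 ≤ R) (V : Fin n → ℝ)
    (gc : ∀ i j, Good R (fun p => c i j p.1)) (gw : ∀ i j, Good R (fun p => w i j p.1))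
    (hpos : ∀ i j t, 0 < w i j t) (hvol : ∀ i t, w i 0 t * w i 1 t * w i 2 t = V i)
    (ht0 : ∀ i j t, t ≤ 1 / 4 → c i j t = c i j 0 ∧ w i j t = w i j 0)
    (ht1 : ∀ i j t, 3 / 4 ≤ t → c i j t = c i j 1 ∧ w i j t = w i j 1)
    (hsep : ∀ t i i', i ≠ i' → ∃ j, w i j t + w i' j t + 3 * η ≤ |c i j t - c i' j t|)
    (hbdd : ∀ i j t, |c i j t| + w i j t + 2 * η ≤ R) :
    ∃ (U : Field) (Φ : ℝ → (Fin 3 → ℝ) → (Fin 3 → ℝ)),
      ContDiff ℝ ∞ U ∧ HasCompactSupport U ∧ Effective U ∧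
      (∀ p : E, p.1 ∉ Set.Icc (1 / 4 : ℝ) (3 / 4) → U p = 0) ∧ (∀ p : E, spaceDiv U p = 0) ∧
      IsFlow U Φ ∧ ∀ i, ∃ O : Set (Fin 3 → ℝ), IsOpen O ∧
        (∀ x : Fin 3 → ℝ, (∀ j, |x j - c i j 0| ≤ w i j 0) → x ∈ O) ∧
        ∀ x ∈ O, Φ 1 x = fun j => c i j 1 + w i j 1 / w i j 0 * (x j - c i j 0) := by
  classical
  obtain ⟨U, h1, h2, h3, h4, h5, h6⟩ :=
    motion_field c w η hη R hR V gc gw hpos hvol ht0 ht1 hsep hbdd
  have hη' : (0 : ℝ) < η := by exact_mod_cast hη
  have hR' : (0 : ℝ) < R := by exact_mod_cast hR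
  have sc : ∀ i j, ContDiff ℝ ∞ (c i j) := fun i j => contDiff_of_good_fst (gc i j).1
  have sw : ∀ i j, ContDiff ℝ ∞ (w i j) := fun i j => contDiff_of_good_fst (gw i j).1
  choose γ hγ0 hγ using exists_global_solution h1 h2 h4
  let O : Fin n → Set (Fin 3 → ℝ) := fun i => {x | ∀ j, |x j - c i j 0| < w i j 0 * (1 + η / R)}
  let T : Fin n → ℝ → (Fin 3 → ℝ) → (Fin 3 → ℝ) := fun i t x j =>
    c i j t + w i j t / w i j 0 * (x j - c i j 0)
  have hwη : ∀ i j t, w i j t * (1 + η / R) ≤ w i j t + η := by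
    intro i j t
    have a1 := hbdd i j t
    have a2 := abs_nonneg (c i j t)
    have a3 : w i j t ≤ R := by linarith
    have a4 : w i j t * (η / R) ≤ η := by
      rw [← mul_div_assoc, div_le_iff₀ hR']; nlinarith
    linarith
  have hT : ∀ i t, ∀ x ∈ O i, ∀ j, |T i t x j - c i j t| < w i j t + η := by
    intro i t x hx j
    have a1 := hx j
    have a2 := hpos i j t
    have a3 := hpos i j 0
    simp only [T, add_sub_cancel_left]
    rw [abs_mul, abs_of_pos (div_pos a2 a3)]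
    refine lt_of_lt_of_le ?_ (hwη i j t)
    rw [div_mul_eq_mul_div, div_lt_iff₀ a3]
    nlinarith
  have hT0 : ∀ i x, T i 0 x = x := by
    intro i x
    funext j
    simp only [T]
    rw [div_self (hpos i j 0).ne']; ring
  have huniq : ∀ i i' x, x ∈ O i → x ∈ O i' → i = i' := by
    intro i i' x hx hx'
    by_contra hne
    obtain ⟨l, hl⟩ := hsep 0 i i' hne
    have a1 := hT i 0 x hx l
    have a2 := hT i' 0 x hx' l
    rw [hT0] at a1 a2
    have a3 := abs_sub_le (c i l 0) (x l) (c i' l 0)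
    rw [abs_sub_comm (c i l 0) (x l)] at a3
    linarith
  refine ⟨U, fun t x => if h : ∃ i, x ∈ O i then T h.choose t x else γ x t, h1, h2, h3, h4, h5,
    ⟨fun x => ?_, fun t x => ?_⟩, fun i => ⟨O i, ?_, ?_, ?_⟩⟩
  · dsimp only
    split_ifs with h
    · exact hT0 _ x
    · exact hγ0 x
  · by_cases h : ∃ i, x ∈ O i
    · simp only [dif_pos h]
      have hx := h.choose_spec
      generalize h.choose = i at hx
      rw [hasDerivAt_pi]
      intro j
      rw [h6 i (t, T i t x) (hT i t x hx) j]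
      have d1 : HasDerivAt (c i j) (deriv (c i j) t) t :=
        ((sc i j).differentiable (by simp) t).hasDerivAt
      have d2 : HasDerivAt (w i j) (deriv (w i j) t) t :=
        ((sw i j).differentiable (by simp) t).hasDerivAt
      have := d1.add ((d2.div_const (w i j 0)).mul_const (x j - c i j 0))
      refine HasDerivAt.congr_deriv this ?_
      have a2 := (hpos i j t).ne'
      have a3 := (hpos i j 0).ne'
      simp only [T]
      field_simp
      ring
    · simp only [dif_neg h]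
      exact hγ x t
  · simp only [O]
    rw [Set.ofPred_forall]
    exact isOpen_iInter_of_finite fun j => isOpen_lt (by fun_prop) continuous_const
  · intro x hx j
    refine lt_of_le_of_lt (hx j) ?_
    have := hpos i j 0
    have : 0 < w i j 0 * (η / R) := by positivity
    linarith
  · intro x hx
    have h : ∃ i, x ∈ O i := ⟨i, hx⟩
    dsimp only
    rw [dif_pos h, huniq _ _ x h.choose_spec hx]

end Crest.Agent.R126
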